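import Mathlib

/-!
# P058: a conjugation obstruction for subtransitive sets

A finite set congruent to a subset of a finite transitive set cannot have an affine dependency
`∑ c i • x i = 0` (`∑ c i = 0`) whose coefficients, under a second field embedding into `ℝ`, have
exactly one negative entry.  Hence many cyclic quadrilaterals are not subtransitive.
-/

open scoped BigOperators
open Polynomial

namespace Vale.Agent.Results.P058.ConjugateObstruction

/-- Euclidean `n`-space. -/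
abbrev E (n : ℕ) : Type := EuclideanSpace ℝ (Fin n)

/-- The finite set `Y` is transitive: the isometries of `E n` mapping `Y` onto itself act
transitively on `Y`. -/
def IsTransitiveSet {n : ℕ} (Y : Finset (E n)) : Prop :=
  ∀ a ∈ Y, ∀ b ∈ Y, ∃ f : E n ≃ᵢ E n, f '' (Y : Set (E n)) = (Y : Set (E n)) ∧ f a = b

/-- The set `X` is subtransitive: it is congruent to a subset of a finite transitive set
(in some Euclidean space). -/
def IsSubtransitive {d : ℕ} (X : Set (E d)) : Prop :=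
  ∃ (n : ℕ) (Y : Finset (E n)) (e : E d → E n), IsTransitiveSet Y ∧ (∀ x ∈ X, e x ∈ Y) ∧
    ∀ x ∈ X, ∀ x' ∈ X, dist (e x) (e x') = dist x x'

section Basic

variable {V : Type*} [NormedAddCommGroup V] [InnerProductSpace ℝ V] {k : ℕ}

lemma norm_sq_comb (c : Fin k → ℝ) (v : Fin k → V) (hc : ∑ i, c i = 0) :
    ‖∑ i, c i • v i‖ ^ 2 = -(1 / 2) * ∑ i, ∑ j, c i * c j * ‖v i - v j‖ ^ 2 := by
  have h1 : ‖∑ i, c i • v i‖ ^ 2 = ∑ i, ∑ j, c i * c j * inner ℝ (v i) (v j) := by
    rw [← real_inner_self_eq_norm_sq, sum_inner]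
    refine Finset.sum_congr rfl fun i _ => ?_
    rw [inner_sum]
    refine Finset.sum_congr rfl fun j _ => ?_
    rw [inner_smul_left, inner_smul_right]
    simp [mul_assoc]
  have h3 : ∑ i, ∑ j, c i * c j * ‖v i‖ ^ 2 = 0 := by
    calc ∑ i, ∑ j, c i * c j * ‖v i‖ ^ 2 = ∑ i, c i * ‖v i‖ ^ 2 * ∑ j, c j := by
          refine Finset.sum_congr rfl fun i _ => ?_
          rw [Finset.mul_sum]
          exact Finset.sum_congr rfl fun j _ => by ring
      _ = 0 := by simp [hc]
  have h3' : ∑ i, ∑ j, c i * c j * ‖v j‖ ^ 2 = 0 := by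
    calc ∑ i, ∑ j, c i * c j * ‖v j‖ ^ 2 = ∑ i, c i * ∑ j, c j * ‖v j‖ ^ 2 := by
          refine Finset.sum_congr rfl fun i _ => ?_
          rw [Finset.mul_sum]
          exact Finset.sum_congr rfl fun j _ => by ring
      _ = (∑ i, c i) * ∑ j, c j * ‖v j‖ ^ 2 := by rw [Finset.sum_mul]
      _ = 0 := by simp [hc]
  have h4 : ∑ i, ∑ j, c i * c j * ‖v i - v j‖ ^ 2 =
      ∑ i, ∑ j, c i * c j * ‖v i‖ ^ 2 - 2 * ∑ i, ∑ j, c i * c j * inner ℝ (v i) (v j)
        + ∑ i, ∑ j, c i * c j * ‖v j‖ ^ 2 := by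
    rw [Finset.mul_sum, ← Finset.sum_sub_distrib, ← Finset.sum_add_distrib]
    refine Finset.sum_congr rfl fun i _ => ?_
    rw [Finset.mul_sum, ← Finset.sum_sub_distrib, ← Finset.sum_add_distrib]
    refine Finset.sum_congr rfl fun j _ => ?_
    rw [norm_sub_sq_real]
    ring
  rw [h4, h3, h3', h1]
  ring

lemma sum_dist_sq (c : Fin k → ℝ) (v : Fin k → V) (b : V) (hc : ∑ i, c i = 0) :
    ∑ i, c i * ‖v i - b‖ ^ 2 = ∑ i, c i * ‖v i‖ ^ 2 - 2 * inner ℝ (∑ i, c i • v i) b := by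
  have h : ∀ i, c i * ‖v i - b‖ ^ 2 =
      c i * ‖v i‖ ^ 2 - 2 * (c i * inner ℝ (v i) b) + c i * ‖b‖ ^ 2 := by
    intro i
    rw [norm_sub_sq_real]
    ring
  simp_rw [h]
  rw [Finset.sum_add_distrib, Finset.sum_sub_distrib, ← Finset.sum_mul, hc, ← Finset.mul_sum,
    sum_inner]
  simp [inner_smul_left]

end Basic

/-- **The conjugation obstruction.**  Let `ι, σ : F → ℝ` be two field embeddings and let
`x₁, …, x_k` be points on a sphere with `∑ c i = 0` and `∑ ι (c i) • x i = 0`, `c i ∈ F`.  If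
`σ (c i₀) < 0`, all other `σ (c i) ≥ 0`, and `σ (c i₁) > 0` with `x i₁ ≠ x i₀`, then the set of
points is not subtransitive. -/
theorem obstruction {F : Type} [Field F] (ι σ : F →+* ℝ) {d k : ℕ} (x : Fin k → E d)
    (c : Fin k → F) (hsum : ∑ i, c i = 0) (hrel : ∑ i, ι (c i) • x i = 0)
    (z : E d) (r : ℝ) (hsph : ∀ i, dist (x i) z = r)
    (i₀ i₁ : Fin k) (hneg : σ (c i₀) < 0) (hnn : ∀ i, i ≠ i₀ → 0 ≤ σ (c i))
    (hpos : 0 < σ (c i₁)) (hne : x i₁ ≠ x i₀) : ¬ IsSubtransitive (Set.range x) := by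
  rintro ⟨n, Y, e, hY, heY, hd⟩
  set y : Fin k → E n := fun i => e (x i) with hy
  have hyY : ∀ i, y i ∈ Y := fun i => heY _ ⟨i, rfl⟩
  have hdy : ∀ i j, ‖y i - y j‖ = ‖x i - x j‖ := by
    intro i j
    rw [← dist_eq_norm, ← dist_eq_norm]
    exact hd _ ⟨i, rfl⟩ _ ⟨j, rfl⟩
  set a : Fin k → ℝ := fun i => ι (c i) with ha
  have hasum : ∑ i, a i = 0 := by
    simp only [ha]
    rw [← map_sum, hsum, map_zero]
  have hrelx : ∑ i, a i • x i = 0 := hrel
  have hrely : ∑ i, a i • y i = 0 := by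
    have h1 := norm_sq_comb a y hasum
    have h2 := norm_sq_comb a x hasum
    have h4 : ‖∑ i, a i • y i‖ ^ 2 = 0 := by
      rw [h1]
      simp_rw [hdy]
      rw [← h2, hrelx]
      simp
    exact norm_eq_zero.mp (pow_eq_zero_iff two_ne_zero |>.mp h4)
  have hκx : ∑ i, a i * ‖x i‖ ^ 2 = 0 := by
    have h1 := sum_dist_sq a x z hasum
    rw [hrelx, inner_zero_left, mul_zero, sub_zero] at h1
    rw [← h1]
    have h2 : ∀ i, a i * ‖x i - z‖ ^ 2 = a i * r ^ 2 := by
      intro i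
      rw [← dist_eq_norm, hsph]
    simp_rw [h2]
    rw [← Finset.sum_mul, hasum, zero_mul]
  have hκy : ∑ i, a i * ‖y i‖ ^ 2 = 0 := by
    have h1 := sum_dist_sq a y (y i₀) hasum
    rw [hrely, inner_zero_left, mul_zero, sub_zero] at h1
    rw [← h1]
    simp_rw [hdy]
    rw [sum_dist_sq a x (x i₀) hasum, hκx, hrelx, inner_zero_left, mul_zero, sub_zero]
  have hrow : ∀ b : E n, ∑ i, a i * ‖y i - b‖ ^ 2 = 0 := by
    intro b
    rw [sum_dist_sq a y b hasum, hκy, hrely, inner_zero_left, mul_zero, sub_zero]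
  have hm : ‖y i₀ - y i₁‖ ^ 2 ≠ 0 := by
    rw [hdy]
    refine pow_ne_zero 2 (norm_ne_zero_iff.mpr (sub_ne_zero.mpr hne.symm))
  letI : Algebra F ℝ := ι.toAlgebra
  obtain ⟨φ, hφ⟩ : ∃ φ : Module.Dual F ℝ, φ (‖y i₀ - y i₁‖ ^ 2) ≠ 0 := by
    by_contra h
    push_neg at h
    exact hm ((Module.forall_dual_apply_eq_zero_iff F _).mp h)
  set τ : ℝ → ℝ := fun w => σ (φ w) with hτ
  have hτsum : ∀ g : Fin k → ℝ, τ (∑ i, g i) = ∑ i, τ (g i) := by
    intro g
    simp only [hτ]
    rw [map_sum, map_sum]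
  have hτzero : τ 0 = 0 := by simp [hτ]
  have hτsmul : ∀ (f : F) (w : ℝ), τ (ι f * w) = σ f * τ w := by
    intro f w
    have h1 : ι f * w = f • w := by
      rw [Algebra.smul_def]
      rfl
    have h2 : φ (ι f * w) = f * φ w := by
      rw [h1, map_smul, smul_eq_mul]
    simp only [hτ, h2, map_mul]
  set w : Fin k → ℝ := fun i => σ (c i) with hw
  have hwsum : ∑ i, w i = 0 := by
    simp only [hw]
    rw [← map_sum, hsum, map_zero]
  set A : Fin k → E n → ℝ := fun i b => τ (‖y i - b‖ ^ 2) with hA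
  have hrow' : ∀ b : E n, ∑ i, w i * A i b = 0 := by
    intro b
    have h1 := congrArg τ (hrow b)
    rw [hτsum, hτzero] at h1
    rw [← h1]
    refine Finset.sum_congr rfl fun i _ => ?_
    exact (hτsmul (c i) _).symm
  have hS : ∀ i j, ∑ b ∈ Y, A i b ^ 2 = ∑ b ∈ Y, A j b ^ 2 := by
    intro i j
    obtain ⟨f, hfY, hf⟩ := hY _ (hyY i) _ (hyY j)
    have himg : Y.image f = Y := by
      apply Finset.coe_injective
      rw [Finset.coe_image]
      exact hfY
    calc ∑ b ∈ Y, A i b ^ 2 = ∑ b ∈ Y, A j (f b) ^ 2 := by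
          refine Finset.sum_congr rfl fun b _ => ?_
          have h1 : ‖y j - f b‖ = ‖y i - b‖ := by
            rw [← hf, ← dist_eq_norm, ← dist_eq_norm]
            exact f.dist_eq _ _
          simp only [hA, h1]
      _ = ∑ b ∈ Y.image f, A j b ^ 2 := by
          rw [Finset.sum_image (fun a _ b _ h => f.injective h)]
      _ = ∑ b ∈ Y, A j b ^ 2 := by rw [himg]
  have hid : ∀ b, ∑ i, w i * (A i b - A i₀ b) ^ 2 = ∑ i, w i * A i b ^ 2 := by
    intro b
    have h1 : ∀ i, w i * (A i b - A i₀ b) ^ 2 =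
        w i * A i b ^ 2 - 2 * A i₀ b * (w i * A i b) + A i₀ b ^ 2 * w i := by
      intro i
      ring
    simp_rw [h1]
    rw [Finset.sum_add_distrib, Finset.sum_sub_distrib, ← Finset.mul_sum, ← Finset.mul_sum,
      hrow', hwsum]
    ring
  have htot : ∑ b ∈ Y, ∑ i, w i * (A i b - A i₀ b) ^ 2 = 0 := by
    simp_rw [hid]
    rw [Finset.sum_comm]
    have h1 : ∀ i, ∑ b ∈ Y, w i * A i b ^ 2 = w i * ∑ b ∈ Y, A i₀ b ^ 2 := by
      intro i
      rw [← Finset.mul_sum, hS i i₀]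
    simp_rw [h1]
    rw [← Finset.sum_mul, hwsum, zero_mul]
  have hnonneg : ∀ i b, 0 ≤ w i * (A i b - A i₀ b) ^ 2 := by
    intro i b
    by_cases h : i = i₀
    · subst h
      simp
    · exact mul_nonneg (hnn i h) (sq_nonneg _)
  have h5 := (Finset.sum_eq_zero_iff_of_nonneg
    (fun b _ => Finset.sum_nonneg fun i _ => hnonneg i b)).mp htot (y i₁) (hyY i₁)
  have h6 := (Finset.sum_eq_zero_iff_of_nonneg (fun i _ => hnonneg i (y i₁))).mp h5 i₁
    (Finset.mem_univ _)
  have h7 : (A i₁ (y i₁) - A i₀ (y i₁)) ^ 2 = 0 := by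
    rcases mul_eq_zero.mp h6 with h | h
    · exact absurd h hpos.ne'
    · exact h
  have h8 : A i₁ (y i₁) - A i₀ (y i₁) = 0 := pow_eq_zero_iff two_ne_zero |>.mp h7
  have h9 : A i₁ (y i₁) = 0 := by
    simp only [hA, sub_self, norm_zero]
    simpa using hτzero
  have h10 : A i₀ (y i₁) ≠ 0 := by
    simp only [hA, hτ]
    exact (map_ne_zero σ).mpr hφ
  rw [h9, zero_sub, neg_eq_zero] at h8
  exact h10 h8

/-- The four point form: the relation `x₀ - t x₁ + v x₂ + (t - v - 1) x₃ = 0`. -/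
theorem four_point {F : Type} [Field F] (ι σ : F →+* ℝ) {d : ℕ} (x : Fin 4 → E d)
    (z : E d) (r : ℝ) (hsph : ∀ i, dist (x i) z = r) (T V : F)
    (hrel : x 0 - ι T • x 1 + ι V • x 2 + (ι T - ι V - 1) • x 3 = 0)
    (hV : 0 < σ V)
    (hT : (σ T < 0 ∧ x 0 ≠ x 3) ∨ (σ V + 1 < σ T ∧ x 0 ≠ x 1)) :
    ¬ IsSubtransitive (Set.range x) := by
  set c : Fin 4 → F := ![1, -T, V, T - V - 1] with hc
  have hsum : ∑ i, c i = 0 := by
    simp [Fin.sum_univ_four, hc]
    ring
  have hrel' : ∑ i, ι (c i) • x i = 0 := by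
    rw [← hrel]
    simp only [Fin.sum_univ_four, hc]
    simp [sub_eq_add_neg]
  rcases hT with ⟨h, hne⟩ | ⟨h, hne⟩
  · refine obstruction ι σ x c hsum hrel' z r hsph 3 0 ?_ ?_ ?_ hne
    · simp [hc]
      linarith
    · intro i hi
      fin_cases i
      · simp [hc]
      · simp [hc]
        linarith
      · simp [hc]
        linarith
      · exact absurd rfl hi
    · simp [hc]
  · refine obstruction ι σ x c hsum hrel' z r hsph 1 0 ?_ ?_ ?_ hne
    · simp [hc]
      linarith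
    · intro i hi
      fin_cases i
      · simp [hc]
      · exact absurd rfl hi
      · simp [hc]
        linarith
      · simp [hc]
        linarith
    · simp [hc]

/-- Generic quadrilaterals: `u` transcendental over a field containing `v`. -/
theorem transcendental_case {K₀ : Type} [Field K₀] [Algebra K₀ ℝ] (v : K₀) (u : ℝ)
    (hu : Transcendental K₀ u) (hu0 : 0 < u) (hv : 0 < algebraMap K₀ ℝ v)
    {d : ℕ} (x : Fin 4 → E d) (z : E d) (r : ℝ) (hsph : ∀ i, dist (x i) z = r)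
    (hrel : x 0 - u • x 1 + (algebraMap K₀ ℝ v) • x 2 + (u - algebraMap K₀ ℝ v - 1) • x 3 = 0)
    (hne : x 0 ≠ x 3) : ¬ IsSubtransitive (Set.range x) := by
  have hu' : Transcendental K₀ (-u) := fun h => hu (by simpa using h.neg)
  have h1 : Function.Injective (aeval u : K₀[X] →ₐ[K₀] ℝ).toRingHom :=
    transcendental_iff_injective.mp hu
  have h2 : Function.Injective (aeval (-u) : K₀[X] →ₐ[K₀] ℝ).toRingHom :=
    transcendental_iff_injective.mp hu'
  let ι : RatFunc K₀ →+* ℝ := IsFractionRing.lift (A := K₀[X]) h1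
  let σ : RatFunc K₀ →+* ℝ := IsFractionRing.lift (A := K₀[X]) h2
  let T : RatFunc K₀ := algebraMap K₀[X] (RatFunc K₀) X
  let V : RatFunc K₀ := algebraMap K₀[X] (RatFunc K₀) (C v)
  have hιT : ι T = u := by
    simp only [ι, T]
    rw [IsFractionRing.lift_algebraMap]
    simp
  have hσT : σ T = -u := by
    simp only [σ, T]
    rw [IsFractionRing.lift_algebraMap]
    simp
  have hιV : ι V = algebraMap K₀ ℝ v := by
    simp only [ι, V]
    rw [IsFractionRing.lift_algebraMap]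
    simp
  have hσV : σ V = algebraMap K₀ ℝ v := by
    simp only [σ, V]
    rw [IsFractionRing.lift_algebraMap]
    simp
  refine four_point ι σ x z r hsph T V ?_ ?_ (Or.inl ⟨?_, hne⟩)
  · rw [hιT, hιV]
    exact hrel
  · rw [hσV]
    exact hv
  · rw [hσT]
    linarith

/-- The right kite with parameter `t ∈ (0, 2)`: the quadrilateral inscribed in the circle with
diameter from `(0,0)` to `(1,0)`, whose other two vertices are `(t/2, ±√(t/2 (1 - t/2)))`. -/
noncomputable def kite (t : ℝ) : Fin 4 → E 2 :=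
  ![!₂[t / 2, √(t / 2 * (1 - t / 2))], !₂[1, 0], !₂[t / 2, -√(t / 2 * (1 - t / 2))], !₂[0, 0]]

lemma dist_center (a b : ℝ) (h : (a - 1 / 2) ^ 2 + b ^ 2 = 1 / 4) :
    dist (!₂[a, b] : E 2) !₂[1 / 2, 0] = 1 / 2 := by
  rw [EuclideanSpace.dist_eq]
  simp only [Fin.sum_univ_two, Real.dist_eq]
  simp only [PiLp.toLp_apply, Matrix.cons_val_zero, Matrix.cons_val_one, sq_abs, sub_zero]
  rw [h]
  rw [show (1 / 4 : ℝ) = (1 / 2) ^ 2 by norm_num]
  exact Real.sqrt_sq (by norm_num)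

lemma kite_on_circle (t : ℝ) (h0 : 0 < t) (h2 : t < 2) (i : Fin 4) :
    dist (kite t i) !₂[1 / 2, 0] = 1 / 2 := by
  have hs : 0 ≤ t / 2 * (1 - t / 2) := mul_nonneg (by linarith) (by linarith)
  have hq : √(t / 2 * (1 - t / 2)) ^ 2 = t / 2 * (1 - t / 2) := Real.sq_sqrt hs
  fin_cases i
  · apply dist_center
    rw [hq]
    ring
  · apply dist_center
    norm_num
  · apply dist_center
    rw [neg_sq, hq]
    ring
  · apply dist_center
    norm_num

lemma kite_rel (t : ℝ) :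
    kite t 0 - t • kite t 1 + (1 : ℝ) • kite t 2 + (t - 1 - 1) • kite t 3 = 0 := by
  ext i
  fin_cases i
  · simp [kite]
    ring
  · simp [kite]

lemma kite_ne_three (t : ℝ) (h0 : 0 < t) : kite t 0 ≠ kite t 3 := by
  intro h
  have := congrArg (fun v : E 2 => v 0) h
  simp [kite] at this
  linarith

lemma kite_ne_one (t : ℝ) (h2 : t < 2) : kite t 0 ≠ kite t 1 := by
  intro h
  have := congrArg (fun v : E 2 => v 0) h
  simp [kite] at this
  linarith

/-- Kites with a conjugate parameter outside `[0, 2]`. -/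
theorem kite_conjugate (t t' : ℝ) (h0 : 0 < t) (h2 : t < 2) (P : ℚ[X]) (hP : Irreducible P)
    (ht : aeval t P = 0) (ht' : aeval t' P = 0) (hout : t' < 0 ∨ 2 < t') :
    ¬ IsSubtransitive (Set.range (kite t)) := by
  haveI : Fact (Irreducible P) := ⟨hP⟩
  let ι : AdjoinRoot P →+* ℝ := AdjoinRoot.lift (algebraMap ℚ ℝ) t (by
    rw [← aeval_def]; exact ht)
  let σ : AdjoinRoot P →+* ℝ := AdjoinRoot.lift (algebraMap ℚ ℝ) t' (by
    rw [← aeval_def]; exact ht')
  have hιT : ι (AdjoinRoot.root P) = t := AdjoinRoot.lift_root _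
  have hσT : σ (AdjoinRoot.root P) = t' := AdjoinRoot.lift_root _
  refine four_point ι σ (kite t) _ _ (kite_on_circle t h0 h2) (AdjoinRoot.root P) 1 ?_ ?_ ?_
  · rw [hιT, map_one]
    exact kite_rel t
  · rw [map_one]
    exact one_pos
  · rw [hσT, map_one]
    rcases hout with h | h
    · exact Or.inl ⟨h, kite_ne_three t h0⟩
    · exact Or.inr ⟨by linarith, kite_ne_one t h2⟩

/-- Kites with a transcendental parameter. -/
theorem kite_transcendental (t : ℝ) (h0 : 0 < t) (h2 : t < 2) (ht : Transcendental ℚ t) :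
    ¬ IsSubtransitive (Set.range (kite t)) := by
  refine transcendental_case (K₀ := ℚ) 1 t ht h0 (by simp) (kite t) _ _ (kite_on_circle t h0 h2)
    ?_ (kite_ne_three t h0)
  simpa using kite_rel t

/-- The kite with parameter `√2` is not subtransitive. -/
theorem kite_sqrt_two : ¬ IsSubtransitive (Set.range (kite √2)) := by
  have h2 : (0 : ℝ) < √2 := by positivity
  have h3 : √2 < 2 := by
    rw [Real.sqrt_lt' (by norm_num)]
    norm_num
  have hirr : Irreducible (X ^ 2 - C (2 : ℚ)) := by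
    refine X_pow_sub_C_irreducible_of_prime Nat.prime_two ?_
    intro b hb
    have h4 : ((b : ℝ)) ^ 2 = 2 := by exact_mod_cast hb
    have h5 : √2 = |(b : ℝ)| := by
      rw [← h4, Real.sqrt_sq_eq_abs]
    apply irrational_sqrt_two
    refine ⟨|b|, ?_⟩
    rw [h5]
    push_cast
    rfl
  refine kite_conjugate √2 (-√2) h2 h3 (X ^ 2 - C (2 : ℚ)) hirr ?_ ?_ (Or.inl (by linarith))
  · simp
  · simp

/-- **Main statement.** The conjugation obstruction for subtransitive sets and its consequences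
for cyclic quadrilaterals. -/
theorem result :
    -- (A) the obstruction for all finite spherical sets
    (∀ (F : Type) [Field F] (ι σ : F →+* ℝ) (d k : ℕ) (x : Fin k → E d) (c : Fin k → F)
      (z : E d) (r : ℝ) (i₀ i₁ : Fin k),
      ∑ i, c i = 0 → ∑ i, ι (c i) • x i = 0 → (∀ i, dist (x i) z = r) →
      σ (c i₀) < 0 → (∀ i, i ≠ i₀ → 0 ≤ σ (c i)) → 0 < σ (c i₁) → x i₁ ≠ x i₀ →
      ¬ IsSubtransitive (Set.range x)) ∧
    -- (B) generic cyclic quadrilaterals
    (∀ (K₀ : Type) [Field K₀] [Algebra K₀ ℝ] (v : K₀) (u : ℝ) (d : ℕ) (x : Fin 4 → E d)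
      (z : E d) (r : ℝ),
      Transcendental K₀ u → 0 < u → 0 < algebraMap K₀ ℝ v → (∀ i, dist (x i) z = r) →
      x 0 - u • x 1 + (algebraMap K₀ ℝ v) • x 2 + (u - algebraMap K₀ ℝ v - 1) • x 3 = 0 →
      x 0 ≠ x 3 → ¬ IsSubtransitive (Set.range x)) ∧
    -- (C) right kites: concyclic, and not subtransitive for these parameters
    (∀ t : ℝ, 0 < t → t < 2 →
      (∀ i, dist (kite t i) !₂[1 / 2, 0] = 1 / 2) ∧
      ((Transcendental ℚ t ∨ ∃ (P : ℚ[X]) (t' : ℝ), Irreducible P ∧ aeval t P = 0 ∧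
          aeval t' P = 0 ∧ (t' < 0 ∨ 2 < t')) →
        ¬ IsSubtransitive (Set.range (kite t)))) ∧
    -- (D) an explicit algebraic example
    ¬ IsSubtransitive (Set.range (kite √2)) := by
  refine ⟨?_, ?_, ?_, kite_sqrt_two⟩
  · intro F _ ι σ d k x c z r i₀ i₁ hsum hrel hsph hneg hnn hpos hne
    exact obstruction ι σ x c hsum hrel z r hsph i₀ i₁ hneg hnn hpos hne
  · intro K₀ _ _ v u d x z r hu hu0 hv hsph hrel hne
    exact transcendental_case v u hu hu0 hv x z r hsph hrel hne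
  · intro t h0 h2
    refine ⟨kite_on_circle t h0 h2, ?_⟩
    rintro (h | ⟨P, t', hP, ht, ht', hout⟩)
    · exact kite_transcendental t h0 h2 h
    · exact kite_conjugate t t' h0 h2 P hP ht ht' hout

end Vale.Agent.Results.P058.ConjugateObstruction
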