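import Vale.Agent.Results.P058.KiteCriterion

/-!
# P058: right kites whose parameter comes from a root of a polynomial with dominant leading coefficient

If `|c| < 1` and `c` is a root of a nonconstant integer polynomial whose leading coefficient dominates
the sum of the other coefficients in absolute value, then `kite (1 + c)` is subtransitive.
-/

open scoped BigOperators
open Polynomial

namespace Vale.Agent.Results.P058.DominantRoots

open Vale.Agent.Results.P058.ConjugateObstruction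
open Vale.Agent.Results.P058.KiteCriterion

/-- Second-difference sum of a list. -/
noncomputable def sd (f : ℝ → ℝ) (S : List (ℝ × ℝ)) : ℝ :=
  (S.map fun s => f (s.1 + s.2) + f (s.1 - s.2) - 2 * f s.1).sum

/-- Telescoping sum of a list. -/
noncomputable def tl (c : ℝ) (f : ℝ → ℝ) (E : List ℝ) : ℝ :=
  (E.map fun x => f x + f (-x) - f (c * x) - f (-(c * x))).sum

theorem rows_of_sp (c : ℝ) (E : List ℝ) (S : List (ℝ × ℝ)) (hE : ∃ x ∈ E, x ≠ 0)
    (h : ∀ f, tl c f E = sd f S) : HasRows (1 + c) := by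
  classical
  let b : ((Fin E.length × Bool) ⊕ (Fin S.length × Bool)) → Fin 4 → ℝ :=
    Sum.elim
      (fun p => if p.2 then ![c * E[(p.1 : ℕ)], E[(p.1 : ℕ)], c * E[(p.1 : ℕ)], -E[(p.1 : ℕ)]]
        else ![-(c * E[(p.1 : ℕ)]), -E[(p.1 : ℕ)], -(c * E[(p.1 : ℕ)]), E[(p.1 : ℕ)]])
      (fun p => if p.2 then
          ![S[(p.1 : ℕ)].1 + S[(p.1 : ℕ)].2, S[(p.1 : ℕ)].1, S[(p.1 : ℕ)].1 - S[(p.1 : ℕ)].2,
            S[(p.1 : ℕ)].1]
        else
          ![S[(p.1 : ℕ)].1 - S[(p.1 : ℕ)].2, S[(p.1 : ℕ)].1, S[(p.1 : ℕ)].1 + S[(p.1 : ℕ)].2,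
            S[(p.1 : ℕ)].1])
  refine hasRows_of_fintype _ b ?_ ?_ ?_
  · rintro (⟨i, s⟩ | ⟨i, s⟩)
    · cases s <;> simp [b] <;> ring
    · cases s <;> simp [b] <;> ring
  · obtain ⟨x, hx, hx0⟩ := hE
    obtain ⟨i, hi, rfl⟩ := List.getElem_of_mem hx
    refine ⟨.inl (⟨i, hi⟩, true), ?_⟩
    simp only [b, Sum.elim_inl, if_true, Matrix.cons_val_one, Matrix.cons_val, Matrix.cons_val_zero]
    intro h'
    apply hx0
    linarith
  · intro i f
    have h1 := h f
    have hT : tl c f E = ∑ j : Fin E.length, (f E[(j : ℕ)] + f (-E[(j : ℕ)]) - f (c * E[(j : ℕ)])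
        - f (-(c * E[(j : ℕ)]))) := by
      unfold tl
      rw [← Fin.sum_univ_fun_getElem]
    have hS : sd f S = ∑ j : Fin S.length, (f (S[(j : ℕ)].1 + S[(j : ℕ)].2) +
        f (S[(j : ℕ)].1 - S[(j : ℕ)].2) - 2 * f S[(j : ℕ)].1) := by
      unfold sd
      rw [← Fin.sum_univ_fun_getElem]
    rw [hT, hS] at h1
    simp only [Finset.sum_sub_distrib, Finset.sum_add_distrib, ← Finset.mul_sum] at h1
    rw [Fintype.sum_sum_type, Fintype.sum_sum_type]
    simp only [Fintype.sum_prod_type, Fintype.sum_bool]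
    fin_cases i <;>
      simp only [b, Sum.elim_inl, Sum.elim_inr, if_true, if_false, Bool.false_eq_true,
        Matrix.cons_val_zero, Matrix.cons_val_one, Matrix.cons_val, Fin.isValue, Fin.reduceFinMk,
        Fin.mk_one, Fin.zero_eta, Finset.sum_add_distrib] <;>
      linarith

/-- Expressions that are sums of second differences. -/
def Sp (P : (ℝ → ℝ) → ℝ) : Prop := ∃ S : List (ℝ × ℝ), ∀ f, P f = sd f S

lemma sp_congr {P Q : (ℝ → ℝ) → ℝ} (hP : Sp P) (h : ∀ f, P f = Q f) : Sp Q := by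
  obtain ⟨S, hS⟩ := hP
  exact ⟨S, fun f => by rw [← h, hS]⟩

lemma sp_add {P Q : (ℝ → ℝ) → ℝ} (hP : Sp P) (hQ : Sp Q) : Sp (fun f => P f + Q f) := by
  obtain ⟨S, hS⟩ := hP
  obtain ⟨T, hT⟩ := hQ
  exact ⟨S ++ T, fun f => by simp [sd, hS f, hT f]⟩

lemma sp_zero : Sp (fun _ => 0) := ⟨[], fun f => by simp [sd]⟩

lemma sp_base (y e : ℝ) : Sp (fun f => f (y + e) + f (y - e) - 2 * f y) :=
  ⟨[(y, e)], fun f => by simp [sd]⟩

lemma sp_transfer (p e : ℝ) (k : ℕ) :
    Sp (fun f => f p + f (p + ((k : ℝ) + 1) * e) - f (p + (k : ℝ) * e) - f (p + e)) := by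
  induction k with
  | zero =>
    refine sp_congr sp_zero fun f => ?_
    simp
  | succ k ih =>
    refine sp_congr (sp_add ih (sp_base (p + ((k : ℝ) + 1) * e) e)) fun f => ?_
    have e1 : p + ((k : ℝ) + 1) * e + e = p + (((k + 1 : ℕ) : ℝ) + 1) * e := by
      push_cast
      ring
    have e2 : p + ((k : ℝ) + 1) * e - e = p + (k : ℝ) * e := by ring
    have e3 : p + ((k + 1 : ℕ) : ℝ) * e = p + ((k : ℝ) + 1) * e := by
      push_cast
      ring
    rw [e1, e2, e3]
    ring

lemma sp_U (p e : ℝ) (A : ℕ) :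
    Sp (fun f => (A : ℝ) * f p + f (p + ((A : ℝ) + 1) * e) - ((A : ℝ) + 1) * f (p + e)) := by
  induction A with
  | zero =>
    refine sp_congr sp_zero fun f => ?_
    simp
  | succ A ih =>
    refine sp_congr (sp_add ih (sp_transfer p e (A + 1))) fun f => ?_
    have e3 : p + ((A + 1 : ℕ) : ℝ) * e = p + ((A : ℝ) + 1) * e := by
      push_cast
      ring
    rw [e3]
    push_cast
    ring

lemma sp_mean (X : List ℝ) (b : ℝ) (hb : (X.length : ℝ) * b = X.sum) :
    Sp (fun f => (X.map f).sum - (X.length : ℝ) * f b) := by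
  induction X generalizing b with
  | nil =>
    refine sp_congr sp_zero fun f => ?_
    simp
  | cons x X ih =>
    set A : ℕ := X.length with hA
    set b' : ℝ := X.sum / (A : ℝ) with hb'def
    have hb' : (A : ℝ) * b' = X.sum := by
      by_cases h0 : X = []
      · subst h0
        simp [hA]
      · have hpos : 0 < A := List.length_pos_iff.mpr h0
        have : (A : ℝ) ≠ 0 := by positivity
        rw [hb'def]
        field_simp
    have h1 := ih b' hb'
    have hA1 : (A : ℝ) + 1 ≠ 0 := by positivity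
    set e : ℝ := (x - b') / ((A : ℝ) + 1) with he
    have h2 : b' + ((A : ℝ) + 1) * e = x := by
      rw [he]
      field_simp
      ring
    have hb2 : ((A : ℝ) + 1) * b = x + X.sum := by
      have := hb
      simp only [List.length_cons, List.sum_cons] at this
      push_cast at this
      exact this
    have h3 : b' + e = b := by
      have h4 : ((A : ℝ) + 1) * (b' + e) = ((A : ℝ) + 1) * b := by
        rw [hb2, ← hb', ← h2]
        ring_nf
      exact mul_left_cancel₀ hA1 h4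
    refine sp_congr (sp_add h1 (sp_U b' e A)) fun f => ?_
    simp only [List.map_cons, List.sum_cons, List.length_cons, h2, h3]
    push_cast
    ring

/-- Telescoping along powers. -/
lemma exists_tel (c : ℝ) (N : ℕ) (j : ℕ) (hj : j < N) :
    ∃ E : List ℝ, c ^ j ∈ E ∧ ∀ f, tl c f E =
      (f (c ^ j) + f (-c ^ j)) - (f (c ^ N) + f (-c ^ N)) := by
  obtain ⟨m, rfl⟩ : ∃ m, N = j + m + 1 := ⟨N - j - 1, by omega⟩
  clear hj
  induction m generalizing j with
  | zero =>
    refine ⟨[c ^ j], by simp, fun f => ?_⟩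
    have e1 : c * c ^ j = c ^ (j + 0 + 1) := by ring
    simp only [tl, List.map_cons, List.map_nil, List.sum_cons, List.sum_nil, e1]
    ring
  | succ m ih =>
    obtain ⟨E, _, hE⟩ := ih (j + 1)
    refine ⟨c ^ j :: E, by simp, fun f => ?_⟩
    have e1 : c * c ^ j = c ^ (j + 1) := by ring
    have e2 : j + 1 + m + 1 = j + (m + 1) + 1 := by ring
    have hE' := hE f
    rw [e2] at hE'
    simp only [tl, List.map_cons, List.sum_cons, e1] at hE' ⊢
    rw [hE']
    ring

/-- Lists realizing a value of a given weight. -/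
def Rp (c : ℝ) (N : ℕ) (n : ℕ) (s : ℝ) : Prop :=
  ∃ (X E : List ℝ), X.length = n ∧ X.sum = s ∧ (0 < n → ∃ x ∈ E, x ≠ 0) ∧
    ∀ f, tl c f E = (X.map fun x => f x + f (-x)).sum - (n : ℝ) * (f (c ^ N) + f (-c ^ N))

lemma rp_zero (c : ℝ) (N : ℕ) : Rp c N 0 0 :=
  ⟨[], [], rfl, rfl, fun h => absurd h (lt_irrefl _), fun f => by simp [tl]⟩

lemma rp_add {c : ℝ} {N n n' : ℕ} {s s' : ℝ} (h : Rp c N n s) (h' : Rp c N n' s') :
    Rp c N (n + n') (s + s') := by
  obtain ⟨X, E, h1, h2, h3, h4⟩ := h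
  obtain ⟨X', E', h1', h2', h3', h4'⟩ := h'
  refine ⟨X ++ X', E ++ E', by simp [h1, h1'], by simp [h2, h2'], ?_, fun f => ?_⟩
  · intro hpos
    rcases Nat.eq_zero_or_pos n with h0 | h0
    · obtain ⟨x, hx, hx0⟩ := h3' (by omega)
      exact ⟨x, by simp [hx], hx0⟩
    · obtain ⟨x, hx, hx0⟩ := h3 h0
      exact ⟨x, by simp [hx], hx0⟩
  · have e1 : tl c f (E ++ E') = tl c f E + tl c f E' := by simp [tl]
    rw [e1, h4, h4']
    simp only [List.map_append, List.sum_append]
    push_cast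
    ring

lemma rp_one (c : ℝ) (hc0 : c ≠ 0) (N j : ℕ) (hj : j < N) : Rp c N 1 (c ^ j) := by
  obtain ⟨E, hE, hT⟩ := exists_tel c N j hj
  refine ⟨[c ^ j], E, rfl, by simp, fun _ => ⟨c ^ j, hE, pow_ne_zero _ hc0⟩, fun f => ?_⟩
  rw [hT]
  simp

lemma rp_neg_one (c : ℝ) (hc0 : c ≠ 0) (N j : ℕ) (hj : j < N) : Rp c N 1 (-c ^ j) := by
  obtain ⟨E, hE, hT⟩ := exists_tel c N j hj
  refine ⟨[-c ^ j], E, rfl, by simp, fun _ => ⟨c ^ j, hE, pow_ne_zero _ hc0⟩, fun f => ?_⟩
  rw [hT]
  simp only [List.map_cons, List.map_nil, List.sum_cons, List.sum_nil, neg_neg]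
  push_cast
  ring

lemma rp_nsmul {c : ℝ} {N : ℕ} {v : ℝ} (h : Rp c N 1 v) (m : ℕ) : Rp c N m ((m : ℝ) * v) := by
  induction m with
  | zero => simpa using rp_zero c N
  | succ m ih =>
    have := rp_add ih h
    have e : (m : ℝ) * v + v = ((m + 1 : ℕ) : ℝ) * v := by
      push_cast
      ring
    rwa [e] at this

lemma rp_int (c : ℝ) (hc0 : c ≠ 0) (N j : ℕ) (hj : j < N) (z : ℤ) :
    Rp c N z.natAbs ((z : ℝ) * c ^ j) := by
  rcases Int.natAbs_eq z with h | h
  · have hz : (z : ℝ) = ((z.natAbs : ℕ) : ℝ) := by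
      have h2 := congrArg (Int.cast : ℤ → ℝ) h
      rwa [Int.cast_natCast] at h2
    have := rp_nsmul (rp_one c hc0 N j hj) z.natAbs
    rwa [← hz] at this
  · have hz : (z : ℝ) = -((z.natAbs : ℕ) : ℝ) := by
      have h2 := congrArg (Int.cast : ℤ → ℝ) h
      rwa [Int.cast_neg, Int.cast_natCast] at h2
    have := rp_nsmul (rp_neg_one c hc0 N j hj) z.natAbs
    have e : ((z.natAbs : ℕ) : ℝ) * (-c ^ j) = (z : ℝ) * c ^ j := by
      rw [hz]
      ring
    rwa [e] at this

lemma rp_sum (c : ℝ) (hc0 : c ≠ 0) (N : ℕ) (a : ℕ → ℤ) (M : ℕ) (hM : M ≤ N) :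
    Rp c N (∑ j ∈ Finset.range M, (a j).natAbs) (∑ j ∈ Finset.range M, (a j : ℝ) * c ^ j) := by
  induction M with
  | zero => simpa using rp_zero c N
  | succ M ih =>
    rw [Finset.sum_range_succ, Finset.sum_range_succ]
    exact rp_add (ih (by omega)) (rp_int c hc0 N M (by omega) (a M))

/-- The combinatorial core. -/
theorem hasRows_of_dominant (c : ℝ) (hc0 : c ≠ 0) (N : ℕ) (hN : 0 < N) (D : ℕ) (hD : 0 < D)
    (a : ℕ → ℤ) (hdom : ∑ j ∈ Finset.range N, (a j).natAbs ≤ D)
    (hroot : (D : ℝ) * c ^ N = ∑ j ∈ Finset.range N, (a j : ℝ) * c ^ j) : HasRows (1 + c) := by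
  have h1 := rp_sum c hc0 N a N le_rfl
  have h2 := rp_add h1 h1
  obtain ⟨L, hL⟩ : ∃ L, D = ∑ j ∈ Finset.range N, (a j).natAbs + L :=
    ⟨D - ∑ j ∈ Finset.range N, (a j).natAbs, by omega⟩
  have h3 := rp_nsmul (rp_one c hc0 N 0 hN) L
  have h4 := rp_nsmul (rp_neg_one c hc0 N 0 hN) L
  have h5 := rp_add (rp_add h2 h3) h4
  obtain ⟨X, E, hX, hs, hne, hT⟩ := h5
  set n : ℕ := ∑ j ∈ Finset.range N, (a j).natAbs + ∑ j ∈ Finset.range N, (a j).natAbs + L + L
    with hn
  have hn2 : n = 2 * D := by omega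
  have hsum : X.sum = (n : ℝ) * c ^ N := by
    rw [hs, hn2]
    push_cast
    rw [mul_assoc, hroot]
    ring
  have hlen : (X.length : ℝ) = n := by rw [hX]
  have s1 := sp_mean X (c ^ N) (by rw [hlen, hsum])
  have hneg : ∀ Y : List ℝ, (Y.map fun x => -x).sum = -Y.sum := by
    intro Y
    induction Y with
    | nil => simp
    | cons x Y ih =>
      simp only [List.map_cons, List.sum_cons, ih]
      ring
  have s2 := sp_mean (X.map fun x => -x) (-c ^ N) (by
    rw [hneg, hsum, List.length_map, hlen]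
    ring)
  obtain ⟨S, hS⟩ := sp_add s1 s2
  refine rows_of_sp c E S (hne (by omega)) fun f => ?_
  rw [← hS f, hT f]
  have hsplit : ∀ Y : List ℝ, (Y.map fun x => f x + f (-x)).sum =
      (Y.map f).sum + ((Y.map fun x => -x).map f).sum := by
    intro Y
    induction Y with
    | nil => simp
    | cons x Y ih =>
      simp only [List.map_cons, List.sum_cons, ih]
      ring
  rw [hsplit, List.length_map, hlen]
  ring

/-- The main statement, for roots of integer polynomials with dominant leading coefficient. -/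
theorem result (c : ℝ) (hc : |c| < 1) (P : ℤ[X]) (hdeg : 0 < P.natDegree)
    (hdom : ∑ j ∈ Finset.range P.natDegree, |P.coeff j| ≤ |P.leadingCoeff|)
    (hroot : aeval c P = 0) : IsSubtransitive (Set.range (kite (1 + c))) := by
  have hc' := abs_lt.mp hc
  refine (criterion (1 + c) (by linarith [hc'.1]) (by linarith [hc'.2])).mpr ?_
  by_cases hc0 : c = 0
  · subst hc0
    have := hasRows_rat 1 (by norm_num) (by norm_num)
    simpa using this
  have hlead : P.leadingCoeff ≠ 0 := by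
    intro h
    rw [Polynomial.leadingCoeff_eq_zero] at h
    simp [h] at hdeg
  have hroot' : (P.leadingCoeff : ℝ) * c ^ P.natDegree =
      -∑ j ∈ Finset.range P.natDegree, (P.coeff j : ℝ) * c ^ j := by
    have h1 := hroot
    rw [Polynomial.aeval_eq_sum_range, Finset.sum_range_succ] at h1
    simp only [zsmul_eq_mul, Polynomial.coeff_natDegree] at h1
    linarith
  have hdomN : ∑ j ∈ Finset.range P.natDegree, (P.coeff j).natAbs ≤ P.leadingCoeff.natAbs := by
    zify
    simpa using hdom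
  have hD : 0 < P.leadingCoeff.natAbs := Int.natAbs_pos.mpr hlead
  rcases lt_or_gt_of_ne hlead with hneg | hpos
  · refine hasRows_of_dominant c hc0 P.natDegree hdeg P.leadingCoeff.natAbs hD
      (fun j => P.coeff j) hdomN ?_
    have h2 : ((P.leadingCoeff.natAbs : ℕ) : ℝ) = -(P.leadingCoeff : ℝ) := by
      have h3 : ((P.leadingCoeff.natAbs : ℕ) : ℤ) = -P.leadingCoeff := by
        rw [Int.natCast_natAbs, abs_of_neg hneg]
      have h4 := congrArg (Int.cast : ℤ → ℝ) h3
      rwa [Int.cast_natCast, Int.cast_neg] at h4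
    rw [h2]
    linarith
  · refine hasRows_of_dominant c hc0 P.natDegree hdeg P.leadingCoeff.natAbs hD
      (fun j => -P.coeff j) ?_ ?_
    · simpa [Int.natAbs_neg] using hdomN
    · have h2 : ((P.leadingCoeff.natAbs : ℕ) : ℝ) = (P.leadingCoeff : ℝ) := by
        have h3 : ((P.leadingCoeff.natAbs : ℕ) : ℤ) = P.leadingCoeff := by
          rw [Int.natCast_natAbs, abs_of_pos hpos]
        have h4 := congrArg (Int.cast : ℤ → ℝ) h3
        rwa [Int.cast_natCast] at h4
      rw [h2, hroot']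
      simp only [Int.cast_neg, neg_mul, Finset.sum_neg_distrib]

end Vale.Agent.Results.P058.DominantRoots
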