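import Vale.Agent.Results.P058.DominantRoots

/-!
# P058: right kites: subtransitivity when all conjugates of the parameter lie in a disc, and the exact
classification for parameters with only real conjugates

A high power `X ^ N` reduced modulo the minimal polynomial of `c` has coefficients tending to `0`
(Lagrange interpolation at the conjugates), so `c` is a root of a polynomial with dominant leading
coefficient, and `DominantRoots` applies.
-/

open scoped BigOperators
open Polynomial Filter Topology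

namespace Vale.Agent.Results.P058.KiteClassification

open Vale.Agent.Results.P058.ConjugateObstruction
open Vale.Agent.Results.P058.KiteCriterion
open Vale.Agent.Results.P058.DominantRoots

theorem exists_small_rem (c : ℝ) (hc : IsAlgebraic ℚ c)
    (h : ∀ z : ℂ, aeval z (minpoly ℚ c) = 0 → ‖z‖ < 1) :
    ∃ N : ℕ, (minpoly ℚ c).natDegree ≤ N ∧
      ∑ j ∈ Finset.range (minpoly ℚ c).natDegree,
        |(((X ^ N %ₘ minpoly ℚ c).coeff j : ℚ) : ℝ)| < 1 := by
  classical
  have hint : IsIntegral ℚ c := hc.isIntegral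
  set μ := minpoly ℚ c with hμdef
  have hμ : μ.Monic := minpoly.monic hint
  have hirr : Irreducible μ := minpoly.irreducible hint
  have hr : 0 < μ.natDegree := minpoly.natDegree_pos hint
  have hsep : μ.Separable := hirr.separable
  set μ' := μ.map (algebraMap ℚ ℂ) with hμ'
  have hnd : μ'.roots.Nodup := nodup_roots (hsep.map)
  set s : Finset ℂ := μ'.roots.toFinset with hs
  have hcard : s.card = μ.natDegree := by
    rw [hs, Multiset.toFinset_card_of_nodup hnd,
      ← (IsAlgClosed.splits μ').natDegree_eq_card_roots, hμ', natDegree_map]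
  have hμ'0 : μ' ≠ 0 := (hμ.map _).ne_zero
  have hroots : ∀ τ ∈ s, aeval τ μ = 0 := by
    intro τ hτ
    have h1 : τ ∈ μ'.roots := Multiset.mem_toFinset.mp hτ
    have h2 := (mem_roots hμ'0).mp h1
    rw [IsRoot, hμ', eval_map] at h2
    rwa [aeval_def]
  have hnorm : ∀ τ ∈ s, ‖τ‖ < 1 := fun τ hτ => h τ (hroots τ hτ)
  have hne1 : μ ≠ 1 := by
    intro h1
    rw [h1] at hr
    simp at hr
  have hinterp : ∀ N : ℕ, (X ^ N %ₘ μ).map (algebraMap ℚ ℂ) =
      Lagrange.interpolate s id (fun τ => τ ^ N) := by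
    intro N
    apply Lagrange.eq_interpolate_of_eval_eq
    · exact Function.injective_id.injOn
    · rw [degree_map, hcard]
      have h3 := degree_modByMonic_lt (X ^ N : ℚ[X]) hμ
      rwa [degree_eq_natDegree hμ.ne_zero] at h3
    · intro τ hτ
      have h1 := modByMonic_add_div (X ^ N : ℚ[X]) μ
      have h2 := congrArg (aeval τ) h1
      simp only [map_add, map_mul, map_pow, aeval_X, hroots τ hτ, zero_mul, add_zero] at h2
      rw [eval_map, id, ← aeval_def]
      exact h2
  have hcoeff : ∀ (N j : ℕ), (((X ^ N %ₘ μ).coeff j : ℚ) : ℂ) =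
      ∑ τ ∈ s, τ ^ N * (Lagrange.basis s id τ).coeff j := by
    intro N j
    have h1 := congrArg (fun p => p.coeff j) (hinterp N)
    simp only [coeff_map, Lagrange.interpolate_apply, finsetSum_coeff, coeff_C_mul] at h1
    simpa using h1
  have hT0 : ∀ j, Tendsto (fun N : ℕ => ∑ τ ∈ s, τ ^ N * (Lagrange.basis s id τ).coeff j) atTop
      (𝓝 0) := by
    intro j
    have h1 := tendsto_finsetSum s (fun τ hτ =>
      (tendsto_pow_atTop_nhds_zero_of_norm_lt_one (hnorm τ hτ)).mul_const
        ((Lagrange.basis s id τ).coeff j))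
    simpa using h1
  have hT : Tendsto (fun N : ℕ => ∑ j ∈ Finset.range μ.natDegree,
      ‖∑ τ ∈ s, τ ^ N * (Lagrange.basis s id τ).coeff j‖) atTop (𝓝 0) := by
    have h1 := tendsto_finsetSum (Finset.range μ.natDegree) (fun j _ => (hT0 j).norm)
    simpa using h1
  obtain ⟨N, hN1, hN2⟩ := ((hT.eventually (gt_mem_nhds one_pos)).and
    (eventually_ge_atTop μ.natDegree)).exists
  refine ⟨N, hN2, ?_⟩
  have h4 : ∀ j, |(((X ^ N %ₘ μ).coeff j : ℚ) : ℝ)| =
      ‖∑ τ ∈ s, τ ^ N * (Lagrange.basis s id τ).coeff j‖ := by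
    intro j
    rw [← hcoeff, Complex.norm_ratCast]
  simp_rw [h4]
  exact hN1

/-- `kite (1 + c)` is subtransitive when all conjugates of `c` lie in the open unit disc. -/
theorem root_disc (c : ℝ) (halg : IsAlgebraic ℚ c)
    (h : ∀ z : ℂ, aeval z (minpoly ℚ c) = 0 → ‖z‖ < 1) :
    IsSubtransitive (Set.range (kite (1 + c))) := by
  classical
  have hc : |c| < 1 := by
    have h1 := h (c : ℂ) (by
      have h2 : aeval (c : ℂ) (minpoly ℚ c) = ((aeval c (minpoly ℚ c) : ℝ) : ℂ) := by
        have := aeval_algebraMap_apply ℂ c (minpoly ℚ c)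
        simpa using this
      rw [h2, minpoly.aeval]
      simp)
    simpa [Complex.norm_real] using h1
  have hc' := abs_lt.mp hc
  refine (criterion (1 + c) (by linarith [hc'.1]) (by linarith [hc'.2])).mpr ?_
  by_cases hc0 : c = 0
  · subst hc0
    have := hasRows_rat 1 (by norm_num) (by norm_num)
    simpa using this
  have hint : IsIntegral ℚ c := halg.isIntegral
  obtain ⟨N, hN, hsmall⟩ := exists_small_rem c halg h
  set μ := minpoly ℚ c with hμdef
  have hμ : μ.Monic := minpoly.monic hint
  have hr : 0 < μ.natDegree := minpoly.natDegree_pos hint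
  have hne1 : μ ≠ 1 := by
    intro h1
    rw [h1] at hr
    simp at hr
  have hNpos : 0 < N := by omega
  set R : ℚ[X] := X ^ N %ₘ μ with hR
  have hRdeg : R.natDegree < μ.natDegree := natDegree_modByMonic_lt _ hμ hne1
  set m : ℕ → ℚ := fun j => R.coeff j with hm
  set D : ℕ := ∏ j ∈ Finset.range N, (m j).den with hD
  have hDpos : 0 < D := Finset.prod_pos fun j _ => (m j).den_pos
  set a : ℕ → ℤ := fun j => (m j).num * ((D / (m j).den : ℕ) : ℤ) with ha
  have hq : ∀ j ∈ Finset.range N, ((a j : ℤ) : ℝ) = ((m j : ℚ) : ℝ) * D := by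
    intro j hj
    obtain ⟨k, hk⟩ : (m j).den ∣ D := Finset.dvd_prod_of_mem _ hj
    have hden := (m j).den_pos
    have h1 : D / (m j).den = k := by
      rw [hk]
      exact Nat.mul_div_cancel_left k hden
    have h2 : (((m j).num : ℤ) : ℝ) = ((m j : ℚ) : ℝ) * ((m j).den : ℝ) := by
      exact_mod_cast (Rat.mul_den_eq_num (m j)).symm
    simp only [ha, h1]
    push_cast
    rw [hk]
    push_cast
    rw [h2]
    ring
  have hsum : ∑ j ∈ Finset.range N, |((m j : ℚ) : ℝ)| < 1 := by
    have hsub : Finset.range μ.natDegree ⊆ Finset.range N := Finset.range_subset_range.mpr hN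
    rw [← Finset.sum_subset hsub]
    · exact hsmall
    · intro j _ hj
      have : μ.natDegree ≤ j := by simpa using hj
      have h0 : m j = 0 := coeff_eq_zero_of_natDegree_lt (by omega)
      simp [h0]
  have hdom : ∑ j ∈ Finset.range N, (a j).natAbs ≤ D := by
    have h1 : ((∑ j ∈ Finset.range N, (a j).natAbs : ℕ) : ℝ) ≤ (D : ℝ) := by
      push_cast
      have h2 : ∀ j ∈ Finset.range N, (((a j).natAbs : ℕ) : ℝ) = |((m j : ℚ) : ℝ)| * D := by
        intro j hj
        rw [Nat.cast_natAbs, Int.cast_abs, hq j hj, abs_mul, Nat.abs_cast]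
      rw [Finset.sum_congr rfl h2, ← Finset.sum_mul]
      have hDr : (0 : ℝ) < D := by exact_mod_cast hDpos
      nlinarith
    exact_mod_cast h1
  have hroot : (D : ℝ) * c ^ N = ∑ j ∈ Finset.range N, (a j : ℝ) * c ^ j := by
    have hμc : aeval c μ = 0 := minpoly.aeval ℚ c
    have h1 := modByMonic_add_div (X ^ N : ℚ[X]) μ
    have h2 := congrArg (aeval c) h1
    simp only [map_add, map_mul, map_pow, aeval_X, hμc, zero_mul, add_zero] at h2
    have h3 : aeval c R = ∑ j ∈ Finset.range N, ((m j : ℚ) : ℝ) * c ^ j := by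
      rw [aeval_eq_sum_range' (n := N) (by omega)]
      refine Finset.sum_congr rfl fun j _ => ?_
      rw [Rat.smul_def]
    rw [← h2, h3, Finset.mul_sum]
    refine Finset.sum_congr rfl fun j hj => ?_
    rw [hq j hj]
    ring
  exact hasRows_of_dominant c hc0 N hNpos D hDpos a hdom hroot

/-- Sufficient condition in terms of `t`. -/
theorem kite_of_disc (t : ℝ) (halg : IsAlgebraic ℚ t)
    (h : ∀ z : ℂ, aeval z (minpoly ℚ t) = 0 → ‖z - 1‖ < 1) :
    IsSubtransitive (Set.range (kite t)) := by
  have hint : IsIntegral ℚ t := halg.isIntegral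
  have hc : IsAlgebraic ℚ (t - 1) := by
    have := (hint.sub (isIntegral_one (R := ℚ) (B := ℝ))).isAlgebraic
    exact this
  have hmin : minpoly ℚ (t - 1) = (minpoly ℚ t).comp (X + C 1) := by
    have := minpoly.sub_algebraMap t (1 : ℚ)
    simpa using this
  have := root_disc (t - 1) hc (fun z hz => by
    have h1 := h (z + 1) (by
      rw [hmin, aeval_comp] at hz
      simpa using hz)
    simpa using h1)
  have e : 1 + (t - 1) = t := by ring
  rwa [e] at this

/-- Necessary condition in terms of `t`. -/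
theorem conj_of_kite (t : ℝ) (h0 : 0 < t) (h2 : t < 2) (h : IsSubtransitive (Set.range (kite t))) :
    IsAlgebraic ℚ t ∧ ∀ x : ℝ, aeval x (minpoly ℚ t) = 0 → 0 < x ∧ x < 2 := by
  have halg : IsAlgebraic ℚ t := by
    by_contra hcon
    exact kite_transcendental t h0 h2 hcon h
  refine ⟨halg, fun x hx => ?_⟩
  have hint : IsIntegral ℚ t := halg.isIntegral
  have hirr := minpoly.irreducible hint
  have hroot : aeval t (minpoly ℚ t) = 0 := minpoly.aeval ℚ t
  have hout : ¬ (x < 0 ∨ 2 < x) := fun hout => kite_conjugate t x h0 h2 _ hirr hroot hx hout h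
  have hx0 : 0 ≤ x := by
    by_contra hc
    exact hout (Or.inl (not_le.mp hc))
  have hx2 : x ≤ 2 := by
    by_contra hc
    exact hout (Or.inr (not_le.mp hc))
  have hmx : minpoly ℚ t = minpoly ℚ x :=
    minpoly.eq_of_irreducible_of_monic hirr hx (minpoly.monic hint)
  constructor
  · refine lt_of_le_of_ne hx0 fun hc => ?_
    subst hc
    have h3 : minpoly ℚ (0 : ℝ) = X := minpoly.zero ℚ ℝ
    rw [hmx, h3] at hroot
    simp at hroot
    linarith
  · refine lt_of_le_of_ne hx2 fun hc => ?_
    subst hc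
    have h3 : minpoly ℚ (2 : ℝ) = X - C 2 := by
      have := minpoly.eq_X_sub_C (A := ℚ) ℝ (2 : ℚ)
      simpa using this
    rw [hmx, h3] at hroot
    simp at hroot
    linarith

/-- The main statement: a sufficient condition, a necessary condition, and the exact classification
of the subtransitive right kites whose parameter has only real conjugates. -/
theorem result (t : ℝ) (h0 : 0 < t) (h2 : t < 2) :
    ((IsAlgebraic ℚ t ∧ ∀ z : ℂ, aeval z (minpoly ℚ t) = 0 → ‖z - 1‖ < 1) →
      IsSubtransitive (Set.range (kite t))) ∧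
    (IsSubtransitive (Set.range (kite t)) →
      IsAlgebraic ℚ t ∧ ∀ x : ℝ, aeval x (minpoly ℚ t) = 0 → 0 < x ∧ x < 2) ∧
    ((∀ z : ℂ, aeval z (minpoly ℚ t) = 0 → z.im = 0) →
      (IsSubtransitive (Set.range (kite t)) ↔
        IsAlgebraic ℚ t ∧ ∀ x : ℝ, aeval x (minpoly ℚ t) = 0 → 0 < x ∧ x < 2)) := by
  refine ⟨fun hh => kite_of_disc t hh.1 hh.2, conj_of_kite t h0 h2, fun hreal =>
    ⟨conj_of_kite t h0 h2, fun hh => kite_of_disc t hh.1 fun z hz => ?_⟩⟩
  have him := hreal z hz
  have hzr : z = ((z.re : ℝ) : ℂ) := by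
    apply Complex.ext <;> simp [him]
  have hx : aeval z.re (minpoly ℚ t) = 0 := by
    have h1 : aeval ((z.re : ℝ) : ℂ) (minpoly ℚ t) = ((aeval z.re (minpoly ℚ t) : ℝ) : ℂ) := by
      have := aeval_algebraMap_apply ℂ z.re (minpoly ℚ t)
      simpa using this
    rw [← hzr] at h1
    rw [hz] at h1
    exact_mod_cast h1.symm
  obtain ⟨h3, h4⟩ := hh.2 z.re hx
  rw [hzr]
  have h5 : ((z.re : ℝ) : ℂ) - 1 = ((z.re - 1 : ℝ) : ℂ) := by
    push_cast
    ring
  rw [h5, Complex.norm_real, Real.norm_eq_abs, abs_lt]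
  constructor <;> linarith

end Vale.Agent.Results.P058.KiteClassification
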