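import Vale.Agent.Results.P058.ConjugateObstruction

/-!
# P058: a combinatorial criterion for subtransitivity of right kites

The right kite with parameter `t` is subtransitive if and only if the linear equation
`a₀ + a₂ - 2 a₃ = t (a₁ - a₃)` has a finite system of real solutions (rows) whose four columns are
rearrangements of one another, with `a₁ ≠ a₃` in some row.
-/

open scoped BigOperators
open Polynomial

namespace Vale.Agent.Results.P058.KiteCriterion

open Vale.Agent.Results.P058.ConjugateObstruction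

/-- The combinatorial condition: a finite system of rows solving the kite equation, whose columns are
rearrangements of the first column, with `a₁ ≠ a₃` in some row. -/
def HasRows (t : ℝ) : Prop :=
  ∃ (n : ℕ) (a : Fin n → Fin 4 → ℝ),
    (∀ k, a k 0 + a k 2 - 2 * a k 3 = t * (a k 1 - a k 3)) ∧
    (∃ k, a k 1 ≠ a k 3) ∧
    ∀ i, ∃ π : Equiv.Perm (Fin n), ∀ k, a k i = a (π k) 0

/-- The squared distances of the kite, as a table. -/
noncomputable def dd (t : ℝ) : Fin 4 → Fin 4 → ℝ :=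
  ![![0, 1 - t / 2, t * (2 - t), t / 2],
    ![1 - t / 2, 0, 1 - t / 2, 1],
    ![t * (2 - t), 1 - t / 2, 0, t / 2],
    ![t / 2, 1, t / 2, 0]]

lemma dist_sq_two (a b c d : ℝ) :
    dist (!₂[a, b] : E 2) !₂[c, d] ^ 2 = (a - c) ^ 2 + (b - d) ^ 2 := by
  rw [EuclideanSpace.dist_eq, Real.sq_sqrt (by positivity)]
  simp [Fin.sum_univ_two, Real.dist_eq, sq_abs]

lemma kite_dist_sq (t : ℝ) (h0 : 0 < t) (h2 : t < 2) (i j : Fin 4) :
    dist (kite t i) (kite t j) ^ 2 = dd t i j := by
  have hs : 0 ≤ t / 2 * (1 - t / 2) := mul_nonneg (by linarith) (by linarith)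
  have hq : √(t / 2 * (1 - t / 2)) ^ 2 = t / 2 * (1 - t / 2) := Real.sq_sqrt hs
  set s := √(t / 2 * (1 - t / 2)) with hsdef
  fin_cases i <;> fin_cases j <;>
    simp only [kite, dd, ← hsdef, dist_sq_two, Matrix.cons_val_zero, Matrix.cons_val_one,
      Fin.isValue, Fin.zero_eta, Fin.mk_one, Fin.reduceFinMk, Matrix.cons_val] <;>
    nlinarith [hq]

/-- From a subtransitive kite to rows. -/
theorem rows_of_subtransitive (t : ℝ) (h0 : 0 < t) (h2 : t < 2)
    (h : IsSubtransitive (Set.range (kite t))) : HasRows t := by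
  obtain ⟨n, Y, e, hY, heY, hd⟩ := h
  set x := kite t with hx
  set y : Fin 4 → E n := fun i => e (x i) with hy
  have hyY : ∀ i, y i ∈ Y := fun i => heY _ ⟨i, rfl⟩
  have hdy : ∀ i j, ‖y i - y j‖ = ‖x i - x j‖ := by
    intro i j
    rw [← dist_eq_norm, ← dist_eq_norm]
    exact hd _ ⟨i, rfl⟩ _ ⟨j, rfl⟩
  set c : Fin 4 → ℝ := ![1, -t, 1, t - 2] with hc
  have hcsum : ∑ i, c i = 0 := by
    simp [Fin.sum_univ_four, hc]
    ring
  have hrelx : ∑ i, c i • x i = 0 := by
    have := kite_rel t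
    simp only [Fin.sum_univ_four, hc]
    rw [← this]
    simp [sub_eq_add_neg, hx]
    ring_nf
  have hrely : ∑ i, c i • y i = 0 := by
    have h1 := norm_sq_comb c y hcsum
    have h2 := norm_sq_comb c x hcsum
    have h4 : ‖∑ i, c i • y i‖ ^ 2 = 0 := by
      rw [h1]
      simp_rw [hdy]
      rw [← h2, hrelx]
      simp
    exact norm_eq_zero.mp (pow_eq_zero_iff two_ne_zero |>.mp h4)
  have hκx : ∑ i, c i * ‖x i‖ ^ 2 = 0 := by
    have h1 := sum_dist_sq c x !₂[1 / 2, 0] hcsum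
    rw [hrelx, inner_zero_left, mul_zero, sub_zero] at h1
    rw [← h1]
    have h2' : ∀ i, c i * ‖x i - !₂[1 / 2, 0]‖ ^ 2 = c i * (1 / 2) ^ 2 := by
      intro i
      rw [← dist_eq_norm, hx, kite_on_circle t h0 h2]
    simp_rw [h2']
    rw [← Finset.sum_mul, hcsum, zero_mul]
  have hκy : ∑ i, c i * ‖y i‖ ^ 2 = 0 := by
    have h1 := sum_dist_sq c y (y 0) hcsum
    rw [hrely, inner_zero_left, mul_zero, sub_zero] at h1
    rw [← h1]
    simp_rw [hdy]
    rw [sum_dist_sq c x (x 0) hcsum, hκx, hrelx, inner_zero_left, mul_zero, sub_zero]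
  have hrow : ∀ b : E n, ∑ i, c i * ‖y i - b‖ ^ 2 = 0 := by
    intro b
    rw [sum_dist_sq c y b hcsum, hκy, hrely, inner_zero_left, mul_zero, sub_zero]
  let ε : {b // b ∈ Y} ≃ Fin Y.card := Y.equivFin
  refine ⟨Y.card, fun k i => ‖y i - (ε.symm k : E n)‖ ^ 2, ?_, ?_, ?_⟩
  · intro k
    have h1 := hrow (ε.symm k : E n)
    simp only [Fin.sum_univ_four, hc] at h1
    simp at h1
    linarith
  · refine ⟨ε ⟨y 1, hyY 1⟩, ?_⟩
    simp only [Equiv.symm_apply_apply, sub_self, norm_zero]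
    have h1 : ‖y 3 - y 1‖ ^ 2 = 1 := by
      rw [hdy, ← dist_eq_norm, hx, kite_dist_sq t h0 h2]
      simp [dd]
    rw [h1]
    norm_num
  · intro i
    obtain ⟨f, hfY, hf⟩ := hY _ (hyY i) _ (hyY 0)
    have hmem : ∀ b : {b // b ∈ Y}, f b ∈ Y := by
      intro b
      have : f b ∈ f '' (Y : Set (E n)) := ⟨b, b.2, rfl⟩
      rw [hfY] at this
      exact this
    let g : {b // b ∈ Y} → {b // b ∈ Y} := fun b => ⟨f b, hmem b⟩
    have hg : Function.Injective g := by
      intro a b hab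
      have : f a = f b := congrArg Subtype.val hab
      exact Subtype.ext (f.injective this)
    let g' : {b // b ∈ Y} ≃ {b // b ∈ Y} := Equiv.ofBijective g (Finite.injective_iff_bijective.mp hg)
    refine ⟨(ε.symm.trans g').trans ε, ?_⟩
    intro k
    have h1 : ((ε ((g' (ε.symm k)))) ) = ((ε.symm.trans g').trans ε) k := rfl
    simp only [← h1, Equiv.symm_apply_apply]
    have h2' : ((g' (ε.symm k) : {b // b ∈ Y}) : E n) = f (ε.symm k : E n) := rfl
    rw [h2', ← hf, ← dist_eq_norm, ← dist_eq_norm, f.dist_eq]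

/-- Coordinate permutations act isometrically: an orbit is a transitive set. -/
lemma orbit_transitive {N : ℕ} (w : Fin N → ℝ) :
    IsTransitiveSet (Finset.univ.image fun ρ : Equiv.Perm (Fin N) =>
      (WithLp.toLp 2 (fun k => w (ρ k)) : E N)) := by
  classical
  have key : ∀ σ : Equiv.Perm (Fin N), ∃ f : E N ≃ᵢ E N,
      ∀ u : Fin N → ℝ, f (WithLp.toLp 2 u) = WithLp.toLp 2 (fun k => u (σ k)) := by
    intro σ
    refine ⟨(LinearIsometryEquiv.piLpCongrLeft 2 ℝ ℝ σ.symm).toIsometryEquiv, ?_⟩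
    intro u
    ext k
    simp [LinearIsometryEquiv.piLpCongrLeft]
  intro a ha b hb
  simp only [Finset.mem_image, Finset.mem_univ, true_and] at ha hb
  obtain ⟨ρ₁, rfl⟩ := ha
  obtain ⟨ρ₂, rfl⟩ := hb
  obtain ⟨f, hf⟩ := key (ρ₁⁻¹ * ρ₂)
  refine ⟨f, ?_, ?_⟩
  · ext z
    simp only [Set.mem_image, Finset.coe_image, Finset.coe_univ, Set.image_univ, Set.mem_range,
      exists_exists_eq_and]
    constructor
    · rintro ⟨ρ, rfl⟩
      refine ⟨ρ * (ρ₁⁻¹ * ρ₂), ?_⟩
      rw [hf]
      rfl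
    · rintro ⟨ρ, rfl⟩
      refine ⟨ρ * (ρ₁⁻¹ * ρ₂)⁻¹, ?_⟩
      rw [hf]
      congr 1
      funext k
      simp
  · rw [hf]
    congr 1
    funext k
    simp

/-- Algebra of the second moments. -/
lemma moments (t S p01 p21 p03 p23 p02 p13 : ℝ)
    (h1 : p01 + p21 + (t - 2) * p13 - t * S = 0)
    (h3 : p03 + p23 + (t - 2) * S - t * p13 = 0)
    (h0 : S + p02 + (t - 2) * p03 - t * p01 = 0)
    (h2 : p02 + S + (t - 2) * p23 - t * p21 = 0) :
    4 * S - 2 * (p01 + p21) = (2 - t) * (2 * S - 2 * p13) ∧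
    4 * S - 2 * (p03 + p23) = t * (2 * S - 2 * p13) ∧
    4 * S - 4 * p02 = 2 * t * (2 - t) * (2 * S - 2 * p13) := by
  refine ⟨?_, ?_, ?_⟩
  · linear_combination (-2) * h1
  · linear_combination (-2) * h3
  · have h5 : 2 * p02 = -2 * S - (t - 2) * (p03 + p23) + t * (p01 + p21) := by
      linear_combination h0 + h2
    have h6 : p03 + p23 = (2 - t) * S + t * p13 := by linear_combination h3
    have h7 : p01 + p21 = t * S + (2 - t) * p13 := by linear_combination h1
    rw [h6, h7] at h5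
    linear_combination (-2) * h5

/-- The swap of the vertices `0` and `2`. -/
def sw : Fin 4 → Fin 4 := ![2, 1, 0, 3]

/-- From rows to a subtransitive kite. -/
theorem subtransitive_of_rows (t : ℝ) (h0 : 0 < t) (h2 : t < 2) (h : HasRows t) :
    IsSubtransitive (Set.range (kite t)) := by
  classical
  obtain ⟨n, a, hrel, ⟨k₀, hk₀⟩, hperm⟩ := h
  choose π hπ using hperm
  -- second moments
  set S : ℝ := ∑ k, a k 0 ^ 2 with hS
  have hSi : ∀ i, ∑ k, a k i ^ 2 = S := by
    intro i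
    simp_rw [hπ i]
    exact Equiv.sum_comp (π i) (fun k => a k 0 ^ 2)
  set p : Fin 4 → Fin 4 → ℝ := fun i j => ∑ k, a k i * a k j with hp
  have hpi : ∀ i, p i i = S := by
    intro i
    simp only [hp, ← sq]
    exact hSi i
  have hpc : ∀ i j, p i j = p j i := by
    intro i j
    simp only [hp, mul_comm]
  have hG : ∀ i j, ∑ k, (a k i - a k j) ^ 2 = 2 * S - 2 * p i j := by
    intro i j
    have : ∀ k, (a k i - a k j) ^ 2 = a k i ^ 2 + a k j ^ 2 - 2 * (a k i * a k j) := by
      intro k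
      ring
    simp_rw [this]
    rw [Finset.sum_sub_distrib, Finset.sum_add_distrib, hSi, hSi, ← Finset.mul_sum]
    ring
  have hdot : ∀ j, p 0 j + p 2 j + (t - 2) * p 3 j - t * p 1 j = 0 := by
    intro j
    have h1 : ∑ k, (a k 0 + a k 2 - 2 * a k 3 - t * (a k 1 - a k 3)) * a k j = 0 := by
      refine Finset.sum_eq_zero fun k _ => ?_
      rw [hrel k]
      ring
    have h2 : ∑ k, (a k 0 + a k 2 - 2 * a k 3 - t * (a k 1 - a k 3)) * a k j =
        p 0 j + p 2 j + (t - 2) * p 3 j - t * p 1 j := by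
      simp only [hp, Finset.mul_sum]
      rw [← Finset.sum_add_distrib, ← Finset.sum_add_distrib, ← Finset.sum_sub_distrib]
      refine Finset.sum_congr rfl fun k _ => ?_
      ring
    rw [← h2, h1]
  have hκ : 0 < 2 * S - 2 * p 1 3 := by
    rw [← hG]
    refine Finset.sum_pos' (fun k _ => sq_nonneg _) ⟨k₀, Finset.mem_univ _, ?_⟩
    have := sub_ne_zero.mpr hk₀
    positivity
  -- the second moments of the kite
  have m := moments t S (p 0 1) (p 2 1) (p 0 3) (p 2 3) (p 0 2) (p 1 3)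
    (by have := hdot 1; rw [hpc 3 1, hpi 1] at this; exact this)
    (by have := hdot 3; rw [hpi 3] at this; exact this)
    (by have := hdot 0; rw [hpi 0, hpc 2 0, hpc 3 0, hpc 1 0] at this; exact this)
    (by have := hdot 2; rw [hpi 2, hpc 3 2, hpc 1 2] at this; exact this)
  obtain ⟨m1, m2, m3⟩ := m
  set c : ℝ := (√(2 * (2 * S - 2 * p 1 3)))⁻¹ with hc
  have hc2 : c ^ 2 * (2 * (2 * S - 2 * p 1 3)) = 1 := by
    rw [hc, inv_pow, Real.sq_sqrt (by positivity)]
    have : (2 * (2 * S - 2 * p 1 3)) ≠ 0 := by positivity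
    exact inv_mul_cancel₀ this
  have hA : c ^ 2 * (4 * S - 2 * (p 0 1 + p 2 1)) = 1 - t / 2 := by
    rw [m1]
    linear_combination ((2 - t) / 2) * hc2
  have hB : c ^ 2 * (4 * S - 2 * (p 0 3 + p 2 3)) = t / 2 := by
    rw [m2]
    linear_combination (t / 2) * hc2
  have hC : c ^ 2 * (4 * S - 4 * p 0 2) = t * (2 - t) := by
    rw [m3]
    linear_combination (t * (2 - t)) * hc2
  have hD : ∀ i j, c ^ 2 * ((2 * S - 2 * p i j) + (2 * S - 2 * p (sw i) (sw j))) = dd t i j := by
    have e10 := hpc 1 0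
    have e12 := hpc 1 2
    have e30 := hpc 3 0
    have e32 := hpc 3 2
    have e20 := hpc 2 0
    have e31 := hpc 3 1
    have i0 := hpi 0
    have i1 := hpi 1
    have i2 := hpi 2
    have i3 := hpi 3
    intro i j
    fin_cases i <;> fin_cases j <;>
      simp only [sw, dd, Matrix.cons_val_zero, Matrix.cons_val_one, Fin.isValue, Fin.zero_eta,
        Fin.mk_one, Fin.reduceFinMk, Matrix.cons_val] <;>
      (try simp only [e10, e12, e30, e32, e20, e31, i0, i1, i2, i3]) <;>
      first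
        | linear_combination hA
        | linear_combination hB
        | linear_combination hC
        | linear_combination hc2
        | ring
  -- the doubled matrix
  let ε : Fin n ⊕ Fin n ≃ Fin (n + n) := finSumFinEquiv
  let W : Fin 4 → (Fin n ⊕ Fin n) → ℝ := fun i => Sum.elim (fun k => a k i) (fun k => a k (sw i))
  let v : (Fin n ⊕ Fin n) → ℝ := Sum.elim (fun k => a k 0) (fun k => a k 0)
  let Pi' : Fin 4 → Equiv.Perm (Fin n ⊕ Fin n) := fun i => Equiv.sumCongr (π i) (π (sw i))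
  have hW : ∀ i z, W i z = v (Pi' i z) := by
    intro i z
    cases z with
    | inl k => simp [W, v, Pi', hπ i k]
    | inr k => simp [W, v, Pi', hπ (sw i) k]
  let w : Fin (n + n) → ℝ := fun k => c * v (ε.symm k)
  let y : Fin 4 → E (n + n) := fun i => WithLp.toLp 2 (fun k => c * W i (ε.symm k))
  let ρ : Fin 4 → Equiv.Perm (Fin (n + n)) := fun i => ε.symm.trans ((Pi' i).trans ε)
  have hyρ : ∀ i, y i = WithLp.toLp 2 (fun k => w (ρ i k)) := by
    intro i
    refine congrArg (WithLp.toLp 2) (funext fun k => ?_)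
    simp [w, ρ, hW]
  let Y : Finset (E (n + n)) := Finset.univ.image fun ρ : Equiv.Perm (Fin (n + n)) =>
    (WithLp.toLp 2 (fun k => w (ρ k)) : E (n + n))
  have hY : IsTransitiveSet Y := orbit_transitive w
  have hyY : ∀ i, y i ∈ Y := by
    intro i
    rw [hyρ i]
    exact Finset.mem_image.mpr ⟨ρ i, Finset.mem_univ _, rfl⟩
  have hdist : ∀ i j, dist (y i) (y j) ^ 2 = dd t i j := by
    intro i j
    rw [← hD i j, EuclideanSpace.dist_eq, Real.sq_sqrt (Finset.sum_nonneg fun _ _ => sq_nonneg _)]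
    have h3 : ∀ k, dist (y i k) (y j k) ^ 2 = c ^ 2 * (W i (ε.symm k) - W j (ε.symm k)) ^ 2 := by
      intro k
      simp only [y, Real.dist_eq, sq_abs]
      ring
    simp_rw [h3]
    rw [← Finset.mul_sum]
    congr 1
    rw [Equiv.sum_comp ε.symm (fun z => (W i z - W j z) ^ 2), Fintype.sum_sum_type]
    simp only [W, Sum.elim_inl, Sum.elim_inr]
    rw [hG, hG]
  have hdist' : ∀ i j, dist (y i) (y j) = dist (kite t i) (kite t j) := by
    intro i j
    have h3 : dist (y i) (y j) ^ 2 = dist (kite t i) (kite t j) ^ 2 := by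
      rw [hdist, kite_dist_sq t h0 h2]
    exact (sq_eq_sq₀ dist_nonneg dist_nonneg).mp h3
  let e : E 2 → E (n + n) := fun x => if h : ∃ i, kite t i = x then y (Classical.choose h) else 0
  have he : ∀ i, ∃ i', kite t i' = kite t i ∧ e (kite t i) = y i' := by
    intro i
    have h : ∃ i', kite t i' = kite t i := ⟨i, rfl⟩
    refine ⟨Classical.choose h, Classical.choose_spec h, ?_⟩
    simp only [e, dif_pos h]
  refine ⟨n + n, Y, e, hY, ?_, ?_⟩
  · rintro x ⟨i, rfl⟩
    obtain ⟨i', _, h3⟩ := he i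
    rw [h3]
    exact hyY i'
  · rintro x ⟨i, rfl⟩ x' ⟨j, rfl⟩
    obtain ⟨i', h3, h4⟩ := he i
    obtain ⟨j', h5, h6⟩ := he j
    rw [h4, h6, hdist', h3, h5]

/-- The criterion. -/
theorem criterion (t : ℝ) (h0 : 0 < t) (h2 : t < 2) :
    IsSubtransitive (Set.range (kite t)) ↔ HasRows t :=
  ⟨rows_of_subtransitive t h0 h2, subtransitive_of_rows t h0 h2⟩

/-- Equal test sums give a rearrangement. -/
lemma perm_of_sums {ι : Type} [Fintype ι] (a b : ι → ℝ)
    (h : ∀ f : ℝ → ℝ, ∑ k, f (a k) = ∑ k, f (b k)) :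
    ∃ π : Equiv.Perm ι, ∀ k, a k = b (π k) := by
  classical
  have hc : ∀ v, Fintype.card {k // a k = v} = Fintype.card {k // b k = v} := by
    intro v
    have h1 := h (fun x => if x = v then 1 else 0)
    simp only [Finset.sum_boole] at h1
    rw [Fintype.card_subtype, Fintype.card_subtype]
    exact_mod_cast h1
  let e : ∀ v, {k // a k = v} ≃ {k // b k = v} := fun v => Fintype.equivOfCardEq (hc v)
  exact ⟨Equiv.ofFiberEquiv e, fun k => (Equiv.ofFiberEquiv_map e k).symm⟩

/-- Rows indexed by any finite type, with columns tested by sums. -/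
lemma hasRows_of_fintype {ι : Type} [Fintype ι] (t : ℝ) (b : ι → Fin 4 → ℝ)
    (hrel : ∀ k, b k 0 + b k 2 - 2 * b k 3 = t * (b k 1 - b k 3))
    (hne : ∃ k, b k 1 ≠ b k 3)
    (hsum : ∀ i (f : ℝ → ℝ), ∑ k, f (b k i) = ∑ k, f (b k 0)) : HasRows t := by
  classical
  let e := Fintype.equivFin ι
  refine ⟨Fintype.card ι, fun k => b (e.symm k), fun k => hrel _, ?_, ?_⟩
  · obtain ⟨k, hk⟩ := hne
    exact ⟨e k, by simpa using hk⟩
  · intro i
    obtain ⟨π, hπ⟩ := perm_of_sums (fun k => b (e.symm k) i) (fun k => b (e.symm k) 0)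
      (fun f => by
        rw [Equiv.sum_comp e.symm (fun k => f (b k i)), Equiv.sum_comp e.symm (fun k => f (b k 0))]
        exact hsum i f)
    exact ⟨π, hπ⟩

/-- Exchanging the vertices `1` and `3` replaces `t` by `2 - t`. -/
lemma hasRows_swap (t : ℝ) (h : HasRows t) : HasRows (2 - t) := by
  obtain ⟨n, a, hrel, ⟨k₀, hk₀⟩, hperm⟩ := h
  refine ⟨n, fun k => ![a k 0, a k 3, a k 2, a k 1], ?_, ⟨k₀, ?_⟩, ?_⟩
  · intro k
    have := hrel k
    simp only [Matrix.cons_val_zero, Matrix.cons_val_one, Matrix.cons_val]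
    linear_combination this
  · simp only [Matrix.cons_val_one, Matrix.cons_val]
    exact fun h' => hk₀ h'.symm
  · intro i
    obtain ⟨π0, h0⟩ := hperm 0
    obtain ⟨π1, h1⟩ := hperm 1
    obtain ⟨π2, h2⟩ := hperm 2
    obtain ⟨π3, h3⟩ := hperm 3
    fin_cases i
    · exact ⟨1, fun k => rfl⟩
    · exact ⟨π3, fun k => h3 k⟩
    · exact ⟨π2, fun k => h2 k⟩
    · exact ⟨π1, fun k => h1 k⟩

lemma telescope_inner (f : ℕ → ℝ) (U J : ℕ) :
    ∑ j ∈ Finset.range J,
        (f (U + 2 * j + 3) + f (U + 2 * j) - f (U + 2 * j + 1) - f (U + 2 * j + 2))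
      = f (U + 1 + 2 * J) - f (U + 1) - f (U + 2 * J) + f U := by
  induction J with
  | zero => simp
  | succ J ih =>
    rw [Finset.sum_range_succ, ih]
    have e1 : U + 1 + 2 * (J + 1) = U + 2 * J + 3 := by ring
    have e2 : U + 2 * (J + 1) = U + 2 * J + 2 := by ring
    have e3 : U + 1 + 2 * J = U + 2 * J + 1 := by ring
    rw [e1, e2, e3]
    ring

lemma telescope_outer (f : ℕ → ℝ) (U J : ℕ) :
    ∑ i ∈ Finset.range U, ∑ j ∈ Finset.range J,
        (f (i + 2 * j + 3) + f (i + 2 * j) - f (i + 2 * j + 1) - f (i + 2 * j + 2))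
      = f (U + 2 * J) - f U - f (2 * J) + f 0 := by
  induction U with
  | zero => simp
  | succ U ih =>
    rw [Finset.sum_range_succ, ih, telescope_inner]
    ring

/-- Explicit rows for `t = U / (U + 2 J)`. -/
def row (U J : ℕ) : (Fin 2 ⊕ (Fin U × Fin J × Bool)) → Fin 4 → ℕ :=
  Sum.elim ![![0, U + 2 * J, U, 0], ![U + 2 * J, 0, 2 * J, U + 2 * J]]
    (fun p => if p.2.2 then
        ![p.1 + 2 * p.2.1 + 2, p.1 + 2 * p.2.1 + 1, p.1 + 2 * p.2.1, p.1 + 2 * p.2.1 + 1]
      else
        ![p.1 + 2 * p.2.1 + 1, p.1 + 2 * p.2.1 + 2, p.1 + 2 * p.2.1 + 3, p.1 + 2 * p.2.1 + 2])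

lemma sum_row (U J : ℕ) (g : ℕ → ℝ) (i : Fin 4) :
    ∑ k, g (row U J k i) = g (row U J (.inl 0) i) + g (row U J (.inl 1) i) +
      ∑ x : Fin U, ∑ y : Fin J,
        (g (row U J (.inr (x, y, true)) i) + g (row U J (.inr (x, y, false)) i)) := by
  rw [Fintype.sum_sum_type, Fin.sum_univ_two, Fintype.sum_prod_type]
  simp only [Fintype.sum_prod_type, Fintype.sum_bool]

lemma hasRows_nat (U J : ℕ) (hU : 0 < U) : HasRows ((U : ℝ) / (U + 2 * J)) := by
  have hQ : ((U : ℝ) + 2 * J) ≠ 0 := by positivity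
  refine hasRows_of_fintype _ (fun k i => ((row U J k i : ℕ) : ℝ)) ?_ ?_ ?_
  · rintro (b | ⟨x, y, s⟩)
    · fin_cases b
      · simp [row]
        field_simp
      · simp [row]
        field_simp
        ring
    · cases s <;> simp [row] <;> ring
  · refine ⟨.inl 0, ?_⟩
    simp [row]
    omega
  · intro i f
    have h1 := sum_row U J (fun m => f (m : ℝ)) i
    have h2 := sum_row U J (fun m => f (m : ℝ)) 0
    rw [h1, h2]
    have key := telescope_outer (fun m => f (m : ℝ)) U J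
    simp only [Finset.sum_range] at key
    fin_cases i
    · rfl
    · simp [row, add_comm]
    · have h3 : ∀ x : Fin U, ∀ y : Fin J,
          f (((x : ℕ) + 2 * (y : ℕ) : ℕ) : ℝ) + f (((x : ℕ) + 2 * (y : ℕ) + 3 : ℕ) : ℝ) =
          (f (((x : ℕ) + 2 * (y : ℕ) + 2 : ℕ) : ℝ) + f (((x : ℕ) + 2 * (y : ℕ) + 1 : ℕ) : ℝ)) +
          (f (((x : ℕ) + 2 * (y : ℕ) + 3 : ℕ) : ℝ) + f (((x : ℕ) + 2 * (y : ℕ) : ℕ) : ℝ) -
            f (((x : ℕ) + 2 * (y : ℕ) + 1 : ℕ) : ℝ) - f (((x : ℕ) + 2 * (y : ℕ) + 2 : ℕ) : ℝ)) := by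
        intro x y
        ring
      simp only [row, Sum.elim_inl, Sum.elim_inr, Matrix.cons_val_zero, Matrix.cons_val_one,
        Matrix.cons_val, if_true, if_false, Bool.false_eq_true, Fin.isValue, Fin.reduceFinMk,
        Fin.mk_one, Fin.zero_eta]
      simp_rw [h3]
      simp only [Finset.sum_add_distrib]
      rw [key]
      push_cast
      ring
    · simp [row, add_comm]

/-- All rational kites have rows. -/
theorem hasRows_rat (q : ℚ) (h0 : 0 < (q : ℝ)) (h2 : (q : ℝ) < 2) : HasRows (q : ℝ) := by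
  have main : ∀ r : ℚ, 0 < (r : ℝ) → (r : ℝ) ≤ 1 → HasRows (r : ℝ) := by
    intro r h0 h1
    have hr0 : 0 < r := by exact_mod_cast h0
    have hr1 : r ≤ 1 := by exact_mod_cast h1
    have hn : 0 < r.num := Rat.num_pos.mpr hr0
    have hd : 0 < r.den := r.den_pos
    have hle : r.num ≤ r.den := by
      have := Rat.num_div_den r
      have h3 : (r.num : ℚ) ≤ r.den := by
        have h4 : (0 : ℚ) < r.den := by exact_mod_cast hd
        calc (r.num : ℚ) = r * r.den := by
              rw [Rat.mul_den_eq_num]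
          _ ≤ 1 * r.den := by gcongr
          _ = r.den := one_mul _
      exact_mod_cast h3
    obtain ⟨p, hp⟩ := Int.eq_ofNat_of_zero_le hn.le
    have hple : p ≤ r.den := by
      rw [hp] at hle
      exact_mod_cast hle
    have hp0 : 0 < p := by
      rw [hp] at hn
      exact_mod_cast hn
    have := hasRows_nat (2 * p) (r.den - p) (by omega)
    have e : (((2 * p : ℕ) : ℝ) / (((2 * p : ℕ) : ℝ) + 2 * ((r.den - p : ℕ) : ℝ))) = (r : ℝ) := by
      rw [Nat.cast_sub hple]
      have h4 : (r : ℝ) = (r.num : ℝ) / (r.den : ℝ) := by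
        exact_mod_cast (Rat.num_div_den r).symm
      rw [h4, hp]
      have h5 : (r.den : ℝ) ≠ 0 := by positivity
      have h6 : (p : ℝ) ≠ 0 := by positivity
      push_cast
      field_simp
      ring
    rwa [e] at this
  by_cases h : (q : ℝ) ≤ 1
  · exact main q h0 h
  · have h := not_le.mp h
    have := hasRows_swap _ (main (2 - q) (by push_cast; linarith) (by push_cast; linarith))
    have e : (2 : ℝ) - ((2 - q : ℚ) : ℝ) = q := by
      push_cast
      ring
    rwa [e] at this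

/-- The main statement. -/
theorem result :
    (∀ t : ℝ, 0 < t → t < 2 → (IsSubtransitive (Set.range (kite t)) ↔ HasRows t)) ∧
    (∀ q : ℚ, 0 < (q : ℝ) → (q : ℝ) < 2 → IsSubtransitive (Set.range (kite (q : ℝ)))) :=
  ⟨criterion, fun q h0 h2 => (criterion q h0 h2).mpr (hasRows_rat q h0 h2)⟩

end Vale.Agent.Results.P058.KiteCriterion
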