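import Vale.Agent.Results.P058.KiteCriterion

/-!
# P058: right kites with parameter `1 + c`, `|c| < 1`, `c ^ n` rational, are subtransitive

Chain rows `(w ± c^(j+1) η, w ± c^j η, w ± c^(j+1) η, w ∓ c^j η)` telescope, and the rest is corrected
by the integer small rows of `KiteCriterion`.
-/

open scoped BigOperators

namespace Vale.Agent.Results.P058.RootKites

open Vale.Agent.Results.P058.ConjugateObstruction
open Vale.Agent.Results.P058.KiteCriterion

/-- The rows. -/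
noncomputable def chainB (c w η : ℝ) (U J n : ℕ) :
    ((Fin n × Bool) ⊕ (Fin U × Fin J × Bool × Bool)) → Fin 4 → ℝ :=
  Sum.elim
    (fun p => if p.2 then
        ![w - c ^ ((p.1 : ℕ) + 1) * η, w - c ^ (p.1 : ℕ) * η, w - c ^ ((p.1 : ℕ) + 1) * η,
          w + c ^ (p.1 : ℕ) * η]
      else
        ![w + c ^ ((p.1 : ℕ) + 1) * η, w + c ^ (p.1 : ℕ) * η, w + c ^ ((p.1 : ℕ) + 1) * η,
          w - c ^ (p.1 : ℕ) * η])
    (fun p => if p.2.2.2 then
        (if p.2.2.1 then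
          ![((p.1 + 2 * p.2.1 : ℕ) : ℝ), ((p.1 + 2 * p.2.1 + 1 : ℕ) : ℝ),
            ((p.1 + 2 * p.2.1 + 2 : ℕ) : ℝ), ((p.1 + 2 * p.2.1 + 1 : ℕ) : ℝ)]
        else
          ![((p.1 + 2 * p.2.1 + 2 : ℕ) : ℝ), ((p.1 + 2 * p.2.1 + 1 : ℕ) : ℝ),
            ((p.1 + 2 * p.2.1 : ℕ) : ℝ), ((p.1 + 2 * p.2.1 + 1 : ℕ) : ℝ)])
      else
        (if p.2.2.1 then
          ![((p.1 + 2 * p.2.1 + 3 : ℕ) : ℝ), ((p.1 + 2 * p.2.1 + 2 : ℕ) : ℝ),
            ((p.1 + 2 * p.2.1 + 1 : ℕ) : ℝ), ((p.1 + 2 * p.2.1 + 2 : ℕ) : ℝ)]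
        else
          ![((p.1 + 2 * p.2.1 + 1 : ℕ) : ℝ), ((p.1 + 2 * p.2.1 + 2 : ℕ) : ℝ),
            ((p.1 + 2 * p.2.1 + 3 : ℕ) : ℝ), ((p.1 + 2 * p.2.1 + 2 : ℕ) : ℝ)]))

lemma sum_chainB (c w η : ℝ) (U J n : ℕ) (f : ℝ → ℝ) (i : Fin 4) :
    ∑ k, f (chainB c w η U J n k i) =
      (∑ j : Fin n, (f (chainB c w η U J n (.inl (j, true)) i) +
        f (chainB c w η U J n (.inl (j, false)) i))) +
      ∑ x : Fin U, ∑ y : Fin J,
        ((f (chainB c w η U J n (.inr (x, y, true, true)) i) +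
          f (chainB c w η U J n (.inr (x, y, true, false)) i)) +
         (f (chainB c w η U J n (.inr (x, y, false, true)) i) +
          f (chainB c w η U J n (.inr (x, y, false, false)) i))) := by
  rw [Fintype.sum_sum_type, Fintype.sum_prod_type]
  simp only [Fintype.sum_prod_type, Fintype.sum_bool]

/-- The main construction. -/
theorem hasRows_chain (c : ℝ) (n A J : ℕ) (hn : 0 < n) (hpos : 0 < A + J)
    (h : c ^ n * (2 * (A : ℝ) + 2 * J) = 2 * A ∨ c ^ n * (2 * (A : ℝ) + 2 * J) = -(2 * A)) :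
    HasRows (1 + c) := by
  set η : ℝ := 2 * (A : ℝ) + 2 * J with hη
  have hηpos : 0 < η := by
    have : (0 : ℝ) < (A : ℝ) + J := by exact_mod_cast hpos
    rw [hη]
    linarith
  set U : ℕ := 4 * A + 2 * J with hU
  refine hasRows_of_fintype _ (chainB c η η U J n) ?_ ?_ ?_
  · rintro (⟨j, s⟩ | ⟨x, y, s, r⟩)
    · cases s <;> simp [chainB, pow_succ] <;> ring
    · cases s <;> cases r <;> simp [chainB] <;> ring
  · refine ⟨.inl (⟨0, hn⟩, false), ?_⟩
    simp only [chainB, Sum.elim_inl, Bool.false_eq_true, if_false, Matrix.cons_val_one,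
      Matrix.cons_val, pow_zero, one_mul]
    intro h'
    linarith
  · intro i f
    rw [sum_chainB, sum_chainB]
    have key := telescope_outer (fun m => f (m : ℝ)) U J
    simp only [Finset.sum_range] at key
    set F : ℕ → ℝ := fun j => f (η + c ^ j * η) + f (η - c ^ j * η) with hF
    have hchain : ∑ j : Fin n, (F j - F (j + 1)) = F 0 - F n := by
      have := Finset.sum_range_sub' F n
      rwa [Finset.sum_range] at this
    have e1 : η + c ^ 0 * η = ((U + 2 * J : ℕ) : ℝ) := by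
      rw [hU, hη]
      push_cast
      ring
    have e2 : η - c ^ 0 * η = ((0 : ℕ) : ℝ) := by
      push_cast
      ring
    have e3 : F n = f ((U : ℕ) : ℝ) + f ((2 * J : ℕ) : ℝ) := by
      have hU' : ((U : ℕ) : ℝ) = 4 * (A : ℝ) + 2 * J := by
        rw [hU]
        push_cast
        ring
      have hJ' : ((2 * J : ℕ) : ℝ) = 2 * (J : ℝ) := by
        push_cast
        ring
      rw [hU', hJ']
      rcases h with h | h
      · simp only [hF]
        rw [h]
        congr 2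
        · rw [hη]
          ring
        · rw [hη]
          ring
      · simp only [hF]
        rw [h, add_comm]
        congr 2
        · rw [hη]
          ring
        · rw [hη]
          ring
    have e4 : F 0 = f ((U + 2 * J : ℕ) : ℝ) + f ((0 : ℕ) : ℝ) := by
      simp only [hF]
      rw [e1, e2]
    have hS : ∀ j : ℕ, f (η + c ^ j * η) + f (η - c ^ j * η) =
        (f (η + c ^ (j + 1) * η) + f (η - c ^ (j + 1) * η)) + (F j - F (j + 1)) := by
      intro j
      simp only [hF]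
      ring
    have hmain : (∑ j : Fin n, (f (η - c ^ ((j : ℕ) + 1) * η) + f (η + c ^ ((j : ℕ) + 1) * η))) +
        ∑ x : Fin U, ∑ y : Fin J,
          ((f (((x : ℕ) + 2 * (y : ℕ) : ℕ) : ℝ) + f (((x : ℕ) + 2 * (y : ℕ) + 3 : ℕ) : ℝ)) +
           (f (((x : ℕ) + 2 * (y : ℕ) + 2 : ℕ) : ℝ) + f (((x : ℕ) + 2 * (y : ℕ) + 1 : ℕ) : ℝ))) =
        (∑ j : Fin n, (f (η + c ^ (j : ℕ) * η) + f (η - c ^ (j : ℕ) * η))) +
        ∑ x : Fin U, ∑ y : Fin J,
          ((f (((x : ℕ) + 2 * (y : ℕ) + 1 : ℕ) : ℝ) + f (((x : ℕ) + 2 * (y : ℕ) + 2 : ℕ) : ℝ)) +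
           (f (((x : ℕ) + 2 * (y : ℕ) + 1 : ℕ) : ℝ) + f (((x : ℕ) + 2 * (y : ℕ) + 2 : ℕ) : ℝ))) := by
      have h3 : ∀ x : Fin U, ∀ y : Fin J,
          (f (((x : ℕ) + 2 * (y : ℕ) : ℕ) : ℝ) + f (((x : ℕ) + 2 * (y : ℕ) + 3 : ℕ) : ℝ)) +
           (f (((x : ℕ) + 2 * (y : ℕ) + 2 : ℕ) : ℝ) + f (((x : ℕ) + 2 * (y : ℕ) + 1 : ℕ) : ℝ)) =
          ((f (((x : ℕ) + 2 * (y : ℕ) + 1 : ℕ) : ℝ) + f (((x : ℕ) + 2 * (y : ℕ) + 2 : ℕ) : ℝ)) +
           (f (((x : ℕ) + 2 * (y : ℕ) + 1 : ℕ) : ℝ) + f (((x : ℕ) + 2 * (y : ℕ) + 2 : ℕ) : ℝ))) +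
          (f (((x : ℕ) + 2 * (y : ℕ) + 3 : ℕ) : ℝ) + f (((x : ℕ) + 2 * (y : ℕ) : ℕ) : ℝ) -
            f (((x : ℕ) + 2 * (y : ℕ) + 1 : ℕ) : ℝ) - f (((x : ℕ) + 2 * (y : ℕ) + 2 : ℕ) : ℝ)) := by
        intro x y
        ring
      have h4 : ∀ j : Fin n, f (η + c ^ (j : ℕ) * η) + f (η - c ^ (j : ℕ) * η) =
          (f (η - c ^ ((j : ℕ) + 1) * η) + f (η + c ^ ((j : ℕ) + 1) * η)) +
            (F (j : ℕ) - F ((j : ℕ) + 1)) := by
        intro j
        rw [hS (j : ℕ)]
        ring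
      simp_rw [h3, h4]
      simp only [Finset.sum_add_distrib]
      rw [key, hchain, e3, e4]
      ring
    fin_cases i
    · rfl
    · simp only [chainB, Sum.elim_inl, Sum.elim_inr, if_true, if_false, Bool.false_eq_true,
        Matrix.cons_val_zero, Matrix.cons_val_one, Fin.isValue, Fin.mk_one]
      have h5 : ∑ j : Fin n, (f (η - c ^ (j : ℕ) * η) + f (η + c ^ (j : ℕ) * η)) =
          ∑ j : Fin n, (f (η + c ^ (j : ℕ) * η) + f (η - c ^ (j : ℕ) * η)) :=
        Finset.sum_congr rfl fun _ _ => add_comm _ _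
      rw [h5]
      exact hmain.symm
    · simp only [chainB, Sum.elim_inl, Sum.elim_inr, if_true, if_false, Bool.false_eq_true,
        Matrix.cons_val_zero, Matrix.cons_val, Fin.isValue, Fin.reduceFinMk]
      congr 1
      exact Finset.sum_congr rfl fun _ _ => Finset.sum_congr rfl fun _ _ => add_comm _ _
    · simp only [chainB, Sum.elim_inl, Sum.elim_inr, if_true, if_false, Bool.false_eq_true,
        Matrix.cons_val_zero, Matrix.cons_val, Fin.isValue, Fin.reduceFinMk]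
      exact hmain.symm

/-- The main statement: `kite (1 + c)` is subtransitive when `|c| < 1` and a positive power of `c` is
rational. -/
theorem root_kite (c : ℝ) (hc : |c| < 1) (n : ℕ) (hn : 0 < n) (q : ℚ) (hq : c ^ n = q) :
    IsSubtransitive (Set.range (kite (1 + c))) := by
  have hc' := abs_lt.mp hc
  refine (criterion (1 + c) (by linarith [hc'.1]) (by linarith [hc'.2])).mpr ?_
  have hq1 : |(q : ℝ)| < 1 := by
    rw [← hq, abs_pow]
    exact pow_lt_one₀ (abs_nonneg c) hc hn.ne'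
  have hq2 : |q| < 1 := by exact_mod_cast hq1
  have hd : (0 : ℚ) < q.den := by exact_mod_cast q.den_pos
  have hlt : q.num.natAbs < q.den := by
    have h1 : |q| = (q.num.natAbs : ℚ) / q.den := by
      have h2 : q = (q.num : ℚ) / q.den := (Rat.num_div_den q).symm
      have h3 : |(q.num : ℚ)| = (q.num.natAbs : ℚ) := by
        rw [Nat.cast_natAbs, Int.cast_abs]
      conv_lhs => rw [h2, abs_div, h3, abs_of_pos hd]
    rw [h1, div_lt_one hd] at hq2
    exact_mod_cast hq2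
  set A : ℕ := q.num.natAbs with hA
  obtain ⟨J, hJ⟩ : ∃ J, q.den = A + J := ⟨q.den - A, by omega⟩
  have hJr : (A : ℝ) + J = q.den := by
    rw [hJ]
    push_cast
    ring
  have hqr : (q : ℝ) * q.den = q.num := by
    exact_mod_cast Rat.mul_den_eq_num q
  have key : c ^ n * (2 * (A : ℝ) + 2 * J) = 2 * q.num := by
    have : 2 * (A : ℝ) + 2 * J = 2 * q.den := by
      rw [← hJr]
      ring
    rw [this, hq, ← hqr]
    ring
  refine hasRows_chain c n A J hn (by have := q.den_pos; omega) ?_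
  rcases Int.natAbs_eq q.num with h | h
  · left
    rw [key, h]
    simp [hA]
  · right
    rw [key, h]
    simp [hA]

/-- The final form. -/
theorem result :
    (∀ (c : ℝ) (n : ℕ) (q : ℚ), |c| < 1 → 0 < n → c ^ n = q →
      IsSubtransitive (Set.range (kite (1 + c)))) ∧
    IsSubtransitive (Set.range (kite (1 + √2 / 3))) := by
  refine ⟨fun c n q hc hn hq => root_kite c hc n hn q hq, ?_⟩
  have h2 : √2 ^ 2 = 2 := Real.sq_sqrt (by norm_num)
  have h3 : 0 ≤ √2 := Real.sqrt_nonneg 2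
  refine root_kite (√2 / 3) ?_ 2 (by norm_num) (2 / 9) ?_
  · rw [abs_of_nonneg (by positivity)]
    nlinarith
  · push_cast
    rw [div_pow, h2]
    norm_num

end Vale.Agent.Results.P058.RootKites
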